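import Mathlib

/-!
# P237, sharp route in `ℝ⁴`: the one-dimensional interface

For a profile `f` of the slices (the `i`-th slice has volume `κ₃ f³`) write `J = ∫ f²`, `P = ∫ f³`.
The moment hypothesis `∫ f⁵ ≤ 5 ∫ t² f³` is what isotropy and Schwarz symmetrisation of the slices
give; the quarter circle satisfies it with equality and has `J³ = 2048/(243π²) P²`.
-/

open MeasureTheory Set Real

namespace Vale.Agent.P237.Sharp

/-- The one-dimensional inequality behind Petty's inequality in `ℝ⁴`. -/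
def OneD4 : Prop :=
  ∀ f : ℝ → ℝ, ConcaveOn ℝ (Icc 0 1) f → AntitoneOn f (Icc 0 1) →
    (∀ t ∈ Icc (0:ℝ) 1, √(1 - t ^ 2) ≤ f t) →
    (∫ t in (0:ℝ)..1, f t ^ 5) ≤ 5 * ∫ t in (0:ℝ)..1, t ^ 2 * f t ^ 3 →
    2048 / (243 * π ^ 2) * (∫ t in (0:ℝ)..1, f t ^ 3) ^ 2 ≤ (∫ t in (0:ℝ)..1, f t ^ 2) ^ 3 ∧
      (2048 / (243 * π ^ 2) * (∫ t in (0:ℝ)..1, f t ^ 3) ^ 2 = (∫ t in (0:ℝ)..1, f t ^ 2) ^ 3 →
        ∀ t ∈ Ioo (0:ℝ) 1, f t = √(1 - t ^ 2))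

end Vale.Agent.P237.Sharp
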