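import Vale.Agent.P237.Sharp.OneD3.Spec

/-!
# P237, sharp route in `ℝ⁴`: the two elementary inequalities

Along a cap the moving segment of length `r` on the tangent at `(q, c) = (ss τ, cc τ)` contributes
`3√J·seg τ r - qbar τ r` to the derivative of the gap, where `J = (2/3)(1+X)`. We show that this is
at least `seg τ r / 100`: `√(1+X) ≥ (4+3X)/(4+X)` gives polynomial inequalities on boxes, proved by
Bernstein coefficients.
-/

open Real

namespace Vale.Agent.P237.Sharp.OneD4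

open Vale.Agent.P237.Sharp.OneD3 (cc ss)

/-- `J_B^(3/2) / P_B`. -/
noncomputable def cst : ℝ := 2 / 3 * √(2 / 3) / (3 * π / 16)

/-- The multiplier of the moment hypothesis. -/
noncomputable def lam : ℝ := 23 / 250

/-- Normalised `∫₀ʳ x·(c + qx) dx`. -/
noncomputable def seg (τ r : ℝ) : ℝ := cc τ / 2 + ss τ * r / 3

/-- Normalised `∫₀ʳ x·(3 cst f² + 15 lam t² f² - 5 lam f⁴) dx`, `f = c + qx`, `t = q - cx`. -/
noncomputable def qbar (τ r : ℝ) : ℝ :=
  3 * cst * (1 / 2 * cc τ ^ 2 + 2 / 3 * (cc τ * ss τ) * r + 1 / 4 * ss τ ^ 2 * r ^ 2) +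
    15 * lam * (1 / 2 * (cc τ * ss τ) ^ 2 + 2 / 3 * (cc τ * ss τ * (ss τ ^ 2 - cc τ ^ 2)) * r +
      1 / 4 * ((ss τ ^ 2 - cc τ ^ 2) ^ 2 - 2 * (cc τ * ss τ) ^ 2) * r ^ 2 -
      2 / 5 * (cc τ * ss τ * (ss τ ^ 2 - cc τ ^ 2)) * r ^ 3 +
      1 / 6 * (cc τ * ss τ) ^ 2 * r ^ 4) -
    5 * lam * (1 / 2 * cc τ ^ 4 + 4 / 3 * (cc τ ^ 3 * ss τ) * r +
      3 / 2 * (cc τ ^ 2 * ss τ ^ 2) * r ^ 2 + 4 / 5 * (cc τ * ss τ ^ 3) * r ^ 3 +
      1 / 6 * ss τ ^ 4 * r ^ 4)

/-- `qbar` times `(1+τ²)⁴ rd⁴` at `r = rn/rd`, with `cst` replaced by an upper bound. -/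
noncomputable def qnum4 (τ rn rd : ℝ) : ℝ :=
  3 * (9241 / 10000) * (1 / 2 * (1 - τ ^ 2) ^ 2 * rd ^ 2 +
      2 / 3 * ((1 - τ ^ 2) * (2 * τ)) * rn * rd + 1 / 4 * (2 * τ) ^ 2 * rn ^ 2) *
      (1 + τ ^ 2) ^ 2 * rd ^ 2 +
    15 * (23 / 250) * (1 / 2 * ((1 - τ ^ 2) * (2 * τ)) ^ 2 * rd ^ 4 +
      2 / 3 * ((1 - τ ^ 2) * (2 * τ) * ((2 * τ) ^ 2 - (1 - τ ^ 2) ^ 2)) * rn * rd ^ 3 +
      1 / 4 * (((2 * τ) ^ 2 - (1 - τ ^ 2) ^ 2) ^ 2 - 2 * ((1 - τ ^ 2) * (2 * τ)) ^ 2) *
        rn ^ 2 * rd ^ 2 -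
      2 / 5 * ((1 - τ ^ 2) * (2 * τ) * ((2 * τ) ^ 2 - (1 - τ ^ 2) ^ 2)) * rn ^ 3 * rd +
      1 / 6 * ((1 - τ ^ 2) * (2 * τ)) ^ 2 * rn ^ 4) -
    5 * (23 / 250) * (1 / 2 * (1 - τ ^ 2) ^ 4 * rd ^ 4 +
      4 / 3 * ((1 - τ ^ 2) ^ 3 * (2 * τ)) * rn * rd ^ 3 +
      3 / 2 * ((1 - τ ^ 2) ^ 2 * (2 * τ) ^ 2) * rn ^ 2 * rd ^ 2 +
      4 / 5 * ((1 - τ ^ 2) * (2 * τ) ^ 3) * rn ^ 3 * rd + 1 / 6 * (2 * τ) ^ 4 * rn ^ 4)

/-- `seg` times `(1+τ²)⁴ rd⁴` at `r = rn/rd`. -/
noncomputable def anum4 (τ rn rd : ℝ) : ℝ :=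
  (1 / 2 * (1 - τ ^ 2) * rd + 1 / 3 * (2 * τ) * rn) * (1 + τ ^ 2) ^ 3 * rd ^ 3

/-- The polynomial behind both inequalities, at `r = rn/rd`, `X = Xn/Xd`. -/
noncomputable def poly4 (τ rn rd Xn Xd : ℝ) : ℝ :=
  3 * (816496 / 1000000) * (4 * Xd + 3 * Xn) * anum4 τ rn rd -
    (4 * Xd + Xn) * (qnum4 τ rn rd + 1 / 100 * anum4 τ rn rd)

/-- `poly4` at `r = τ σ` for caps with left tangency in `[0,1]`. -/
noncomputable def midPoly (τ σ : ℝ) : ℝ :=
  poly4 τ (τ * σ) 1 ((τ * σ) ^ 3 * (1 - τ ^ 2 + 2 * τ * (τ * σ)))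
    ((1 + (τ * σ) ^ 2) * (1 + τ ^ 2))

/-- Numerator of the excess area of a head cap, at `r = rn/rd`. -/
noncomputable def headX (τ rn rd : ℝ) : ℝ :=
  3 / 2 * (rn ^ 2 * (2 * τ * rd - (1 - τ ^ 2) * rn) * (1 + τ ^ 2) ^ 2 -
    2 / 3 * (2 * τ * rd - (1 - τ ^ 2) * rn) ^ 3 +
    1 / 3 * rn ^ 3 * (1 - τ ^ 2) * (1 + τ ^ 2) ^ 2)

/-- `poly4` at `r = τ (1+σ)/(1-στ²)`, which covers `τ ≤ r`, `r cc ≤ ss`. -/
noncomputable def headPoly (τ σ : ℝ) : ℝ :=
  poly4 τ (τ * (1 + σ)) (1 - σ * τ ^ 2) (headX τ (τ * (1 + σ)) (1 - σ * τ ^ 2))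
    ((1 - σ * τ ^ 2) ^ 3 * (1 + τ ^ 2) ^ 3)

set_option maxHeartbeats 4000000 in
set_option maxRecDepth 100000 in
lemma midCert0 {τ σ : ℝ} (h1 : 0 ≤ τ) (h2 : τ ≤ 1/2) (h3 : 0 ≤ σ) (h4 : σ ≤ 1) : 0 ≤ midPoly τ σ := by
  have key : ∀ u v z w : ℝ, 0 ≤ u → 0 ≤ v → 0 ≤ z → 0 ≤ w →
      0 ≤ v ^ 15 * (3125772288 * w ^ 8 +
          25006178304 * z ^ 1 * w ^ 7 +
          87521624064 * z ^ 2 * w ^ 6 +
          175043248128 * z ^ 3 * w ^ 5 +
          218804060160 * z ^ 4 * w ^ 4 +
          175043248128 * z ^ 5 * w ^ 3 +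
          87521624064 * z ^ 6 * w ^ 2 +
          25006178304 * z ^ 7 * w ^ 1 +
          3125772288 * z ^ 8) +
        u ^ 1 * v ^ 14 * (46886584320 * w ^ 8 +
          375092674560 * z ^ 1 * w ^ 7 +
          1312824360960 * z ^ 2 * w ^ 6 +
          2625648721920 * z ^ 3 * w ^ 5 +
          3282060902400 * z ^ 4 * w ^ 4 +
          2625648721920 * z ^ 5 * w ^ 3 +
          1312824360960 * z ^ 6 * w ^ 2 +
          375092674560 * z ^ 7 * w ^ 1 +
          46886584320 * z ^ 8) +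
        u ^ 2 * v ^ 13 * (313744121856 * w ^ 8 +
          2522199097344 * z ^ 1 * w ^ 7 +
          8867100352512 * z ^ 2 * w ^ 6 +
          17806091894784 * z ^ 3 * w ^ 5 +
          22338834063360 * z ^ 4 * w ^ 4 +
          17929126772736 * z ^ 5 * w ^ 3 +
          8990135230464 * z ^ 6 * w ^ 2 +
          2574928330752 * z ^ 7 * w ^ 1 +
          322532327424 * z ^ 8) +
        u ^ 3 * v ^ 12 * (1234220802048 * w ^ 8 +
          10032966008832 * z ^ 1 * w ^ 7 +
          35627626684416 * z ^ 2 * w ^ 6 +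
          72193698929664 * z ^ 3 * w ^ 5 +
          91312448547840 * z ^ 4 * w ^ 4 +
          73827893188608 * z ^ 5 * w ^ 3 +
          37265681037312 * z ^ 6 * w ^ 2 +
          10737746512896 * z ^ 7 * w ^ 1 +
          1352327568384 * z ^ 8) +
        u ^ 4 * v ^ 11 * (3164548091904 * w ^ 8 +
          26227404374016 * z ^ 1 * w ^ 7 +
          94731250206720 * z ^ 2 * w ^ 6 +
          194872693702656 * z ^ 3 * w ^ 5 +
          249834442229760 * z ^ 4 * w ^ 4 +
          204491376082944 * z ^ 5 * w ^ 3 +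
          104393804077056 * z ^ 6 * w ^ 2 +
          30399835668480 * z ^ 7 * w ^ 1 +
          3867265222656 * z ^ 8) +
        u ^ 5 * v ^ 10 * (5535498203136 * w ^ 8 +
          47300419584000 * z ^ 1 * w ^ 7 +
          175301343664128 * z ^ 2 * w ^ 6 +
          368738726592768 * z ^ 3 * w ^ 5 +
          482195197858560 * z ^ 4 * w ^ 4 +
          401893480244736 * z ^ 5 * w ^ 3 +
          208691226124800 * z ^ 6 * w ^ 2 +
          61778280507648 * z ^ 7 * w ^ 1 +
          7987641078528 * z ^ 8) +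
        u ^ 6 * v ^ 9 * (6731546366976 * w ^ 8 +
          60186057252864 * z ^ 1 * w ^ 7 +
          231242254331904 * z ^ 2 * w ^ 6 +
          501344695257600 * z ^ 3 * w ^ 5 +
          673375115266560 * z ^ 4 * w ^ 4 +
          575351015156736 * z ^ 5 * w ^ 3 +
          306039395503104 * z ^ 6 * w ^ 2 +
          92806226471424 * z ^ 7 * w ^ 1 +
          12299682670080 * z ^ 8) +
        u ^ 7 * v ^ 8 * (5800253101056 * w ^ 8 +
          54940875300864 * z ^ 1 * w ^ 7 +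
          220349147996160 * z ^ 2 * w ^ 6 +
          494994087091584 * z ^ 3 * w ^ 5 +
          686670391489920 * z ^ 4 * w ^ 4 +
          605595113401728 * z ^ 5 * w ^ 3 +
          332817764503680 * z ^ 6 * w ^ 2 +
          104472104983296 * z ^ 7 * w ^ 1 +
          14364623686656 * z ^ 8) +
        u ^ 8 * v ^ 7 * (3942013362048 * w ^ 8 +
          38246787863552 * z ^ 1 * w ^ 7 +
          156455830737920 * z ^ 2 * w ^ 6 +
          359179702219776 * z ^ 3 * w ^ 5 +
          511985518202880 * z ^ 4 * w ^ 4 +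
          467344356516864 * z ^ 5 * w ^ 3 +
          267884138027520 * z ^ 6 * w ^ 2 +
          88322344496128 * z ^ 7 * w ^ 1 +
          12825690765952 * z ^ 8) +
        u ^ 9 * v ^ 6 * (3012466932864 * w ^ 8 +
          25370203606016 * z ^ 1 * w ^ 7 +
          93970782178304 * z ^ 2 * w ^ 6 +
          202973513574624 * z ^ 3 * w ^ 5 +
          282979287346080 * z ^ 4 * w ^ 4 +
          262293707894304 * z ^ 5 * w ^ 3 +
          157598558765856 * z ^ 6 * w ^ 2 +
          55698503578624 * z ^ 7 * w ^ 1 +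
          8774833430464 * z ^ 8) +
        u ^ 10 * v ^ 5 * (3050505123168 * w ^ 8 +
          20809411544576 * z ^ 1 * w ^ 7 +
          61948082451872 * z ^ 2 * w ^ 6 +
          108138551972864 * z ^ 3 * w ^ 5 +
          127129623339040 * z ^ 4 * w ^ 4 +
          108569706319424 * z ^ 5 * w ^ 3 +
          66669589319584 * z ^ 6 * w ^ 2 +
          25881997625280 * z ^ 7 * w ^ 1 +
          4601867228480 * z ^ 8) +
        u ^ 11 * v ^ 4 * (2760320511456 * w ^ 8 +
          17388698822144 * z ^ 1 * w ^ 7 +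
          45878215037984 * z ^ 2 * w ^ 6 +
          66215912177212 * z ^ 3 * w ^ 5 +
          59092228460940 * z ^ 4 * w ^ 4 +
          37766571597152 * z ^ 5 * w ^ 3 +
          20596932397232 * z ^ 6 * w ^ 2 +
          8813491429252 * z ^ 7 * w ^ 1 +
          1856966578148 * z ^ 8) +
        u ^ 12 * v ^ 3 * (1730977746240 * w ^ 8 +
          10875515228160 * z ^ 1 * w ^ 7 +
          28334348406360 * z ^ 2 * w ^ 6 +
          39188812379584 * z ^ 3 * w ^ 5 +
          30884545255080 * z ^ 4 * w ^ 4 +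
          14670162641696 * z ^ 5 * w ^ 3 +
          5490113282888 * z ^ 6 * w ^ 2 +
          2288270070048 * z ^ 7 * w ^ 1 +
          582731468920 * z ^ 8) +
        u ^ 13 * v ^ 2 * (687641793600 * w ^ 8 +
          4407859558400 * z ^ 1 * w ^ 7 +
          11761820875400 * z ^ 2 * w ^ 6 +
          16694127512945 * z ^ 3 * w ^ 5 +
          13361027753475 * z ^ 4 * w ^ 4 +
          6002866163880 * z ^ 5 * w ^ 3 +
          1666380878740 * z ^ 6 * w ^ 2 +
          514427235415 * z ^ 7 * w ^ 1 +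
          142352129425 * z ^ 8) +
        u ^ 14 * v ^ 1 * (156377004000 * w ^ 8 +
          1029061056000 * z ^ 1 * w ^ 7 +
          2835434001000 * z ^ 2 * w ^ 6 +
          4192573162450 * z ^ 3 * w ^ 5 +
          3537852571750 * z ^ 4 * w ^ 4 +
          1685690054800 * z ^ 5 * w ^ 3 +
          455696314400 * z ^ 6 * w ^ 2 +
          103141097150 * z ^ 7 * w ^ 1 +
          25079719250 * z ^ 8) +
        u ^ 15 * (15549660000 * w ^ 8 +
          105327040000 * z ^ 1 * w ^ 7 +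
          300061315000 * z ^ 2 * w ^ 6 +
          462449237125 * z ^ 3 * w ^ 5 +
          412092629375 * z ^ 4 * w ^ 4 +
          211195710375 * z ^ 5 * w ^ 3 +
          61025025875 * z ^ 6 * w ^ 2 +
          12103231500 * z ^ 7 * w ^ 1 +
          2344058750 * z ^ 8) := fun u v z w _ _ _ _ => by
    positivity
  have h := key (2 * τ - 0) (1 - 2 * τ) (1 * σ - 0) (1 - 1 * σ)
    (by linarith) (by linarith) (by linarith) (by linarith)
  refine nonneg_of_mul_nonneg_right (a := (12288000000 : ℝ)) ?_ (by norm_num)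
  refine le_of_le_of_eq h ?_
  simp only [midPoly, poly4, qnum4, anum4]
  ring

set_option maxHeartbeats 4000000 in
set_option maxRecDepth 100000 in
lemma midCert1 {τ σ : ℝ} (h1 : 1/2 ≤ τ) (h2 : τ ≤ 1) (h3 : 0 ≤ σ) (h4 : σ ≤ 1) : 0 ≤ midPoly τ σ := by
  have key : ∀ u v z w : ℝ, 0 ≤ u → 0 ≤ v → 0 ≤ z → 0 ≤ w →
      0 ≤ v ^ 15 * (15549660000 * w ^ 8 +
          105327040000 * z ^ 1 * w ^ 7 +
          300061315000 * z ^ 2 * w ^ 6 +
          462449237125 * z ^ 3 * w ^ 5 +
          412092629375 * z ^ 4 * w ^ 4 +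
          211195710375 * z ^ 5 * w ^ 3 +
          61025025875 * z ^ 6 * w ^ 2 +
          12103231500 * z ^ 7 * w ^ 1 +
          2344058750 * z ^ 8) +
        u ^ 1 * v ^ 14 * (310112796000 * w ^ 8 +
          2130750144000 * z ^ 1 * w ^ 7 +
          6166405449000 * z ^ 2 * w ^ 6 +
          9680903951300 * z ^ 3 * w ^ 5 +
          8824926309500 * z ^ 4 * w ^ 4 +
          4650181256450 * z ^ 5 * w ^ 3 +
          1375054461850 * z ^ 6 * w ^ 2 +
          259955847850 * z ^ 7 * w ^ 1 +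
          45242043250 * z ^ 8) +
        u ^ 2 * v ^ 13 * (2839942881600 * w ^ 8 +
          19831506790400 * z ^ 1 * w ^ 7 +
          58395421147400 * z ^ 2 * w ^ 6 +
          93530758556845 * z ^ 3 * w ^ 5 +
          87380060081975 * z ^ 4 * w ^ 4 +
          47505742986980 * z ^ 5 * w ^ 3 +
          14537394943040 * z ^ 6 * w ^ 2 +
          2709833745215 * z ^ 7 * w ^ 1 +
          424624665425 * z ^ 8) +
        u ^ 3 * v ^ 12 * (15827241831360 * w ^ 8 +
          112541034506240 * z ^ 1 * w ^ 7 +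
          337598204590040 * z ^ 2 * w ^ 6 +
          552077094960186 * z ^ 3 * w ^ 5 +
          528741011143270 * z ^ 4 * w ^ 4 +
          296565563436984 * z ^ 5 * w ^ 3 +
          94093425307752 * z ^ 6 * w ^ 2 +
          17599241348142 * z ^ 7 * w ^ 1 +
          2521779939130 * z ^ 8) +
        u ^ 4 * v ^ 11 * (59995832956896 * w ^ 8 +
          435345274095104 * z ^ 1 * w ^ 7 +
          1332097275098144 * z ^ 2 * w ^ 6 +
          2225370488861636 * z ^ 3 * w ^ 5 +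
          2184380138037220 * z ^ 4 * w ^ 4 +
          1262361786339408 * z ^ 5 * w ^ 3 +
          414543945352000 * z ^ 6 * w ^ 2 +
          78384008256780 * z ^ 7 * w ^ 1 +
          10447376348668 * z ^ 8) +
        u ^ 5 * v ^ 10 * (163748876174304 * w ^ 8 +
          1215853974871552 * z ^ 1 * w ^ 7 +
          3800531998243936 * z ^ 2 * w ^ 6 +
          6490198918298584 * z ^ 3 * w ^ 5 +
          6527617478683320 * z ^ 4 * w ^ 4 +
          3880980780886816 * z ^ 5 * w ^ 3 +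
          1315581182347808 * z ^ 6 * w ^ 2 +
          252085352224712 * z ^ 7 * w ^ 1 +
          31689847952296 * z ^ 8) +
        u ^ 6 * v ^ 9 * (332104869335424 * w ^ 8 +
          2532292221336576 * z ^ 1 * w ^ 7 +
          8101390641615744 * z ^ 2 * w ^ 6 +
          14154944669810144 * z ^ 3 * w ^ 5 +
          14586558817593280 * z ^ 4 * w ^ 4 +
          8911010274894304 * z ^ 5 * w ^ 3 +
          3110137377226336 * z ^ 6 * w ^ 2 +
          603994781633984 * z ^ 7 * w ^ 1 +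
          72312876144224 * z ^ 8) +
        u ^ 7 * v ^ 8 * (508845217814784 * w ^ 8 +
          4003486522817536 * z ^ 1 * w ^ 7 +
          13141171230383872 * z ^ 2 * w ^ 6 +
          23521128105278976 * z ^ 3 * w ^ 5 +
          24840515094144960 * z ^ 4 * w ^ 4 +
          15579161436884928 * z ^ 5 * w ^ 3 +
          5586754771689408 * z ^ 6 * w ^ 2 +
          1098668120999744 * z ^ 7 * w ^ 1 +
          126010866508160 * z ^ 8) +
        u ^ 8 * v ^ 7 * (592298547922944 * w ^ 8 +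
          4840453443936256 * z ^ 1 * w ^ 7 +
          16354347520869376 * z ^ 2 * w ^ 6 +
          30037665540150528 * z ^ 3 * w ^ 5 +
          32530474966967040 * z ^ 4 * w ^ 4 +
          20935598032980096 * z ^ 5 * w ^ 3 +
          7701662408936832 * z ^ 6 * w ^ 2 +
          1531864211702912 * z ^ 7 * w ^ 1 +
          168742767113600 * z ^ 8) +
        u ^ 9 * v ^ 6 * (521570304436224 * w ^ 8 +
          4469740850651136 * z ^ 1 * w ^ 7 +
          15611534049039360 * z ^ 2 * w ^ 6 +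
          29489101217578496 * z ^ 3 * w ^ 5 +
          32782482813760000 * z ^ 4 * w ^ 4 +
          21648482321234688 * z ^ 5 * w ^ 3 +
          8161280020196608 * z ^ 6 * w ^ 2 +
          1639696814588672 * z ^ 7 * w ^ 1 +
          173393711980800 * z ^ 8) +
        u ^ 10 * v ^ 5 * (342232067825664 * w ^ 8 +
          3119847179124736 * z ^ 1 * w ^ 7 +
          11330322790739968 * z ^ 2 * w ^ 6 +
          22076134007412736 * z ^ 3 * w ^ 5 +
          25228054067568640 * z ^ 4 * w ^ 4 +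
          17100556988480512 * z ^ 5 * w ^ 3 +
          6602846292377600 * z ^ 6 * w ^ 2 +
          1338330807104512 * z ^ 7 * w ^ 1 +
          135395700250624 * z ^ 8) +
        u ^ 11 * v ^ 4 * (162340949213184 * w ^ 8 +
          1610968483168256 * z ^ 1 * w ^ 7 +
          6133008613449728 * z ^ 2 * w ^ 6 +
          12373982637842432 * z ^ 3 * w ^ 5 +
          14564476976435200 * z ^ 4 * w ^ 4 +
          10141001384710144 * z ^ 5 * w ^ 3 +
          4010005389101056 * z ^ 6 * w ^ 2 +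
          819034079674368 * z ^ 7 * w ^ 1 +
          78735032236032 * z ^ 8) +
        u ^ 12 * v ^ 3 * (52651407704064 * w ^ 8 +
          592439959617536 * z ^ 1 * w ^ 7 +
          2392446914723840 * z ^ 2 * w ^ 6 +
          5024480606650368 * z ^ 3 * w ^ 5 +
          6106775079649280 * z ^ 4 * w ^ 4 +
          4372680370839552 * z ^ 5 * w ^ 3 +
          1771305046302720 * z ^ 6 * w ^ 2 +
          364188875300864 * z ^ 7 * w ^ 1 +
          32902502588416 * z ^ 8) +
        u ^ 13 * v ^ 2 * (10454761734144 * w ^ 8 +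
          145159197556736 * z ^ 1 * w ^ 7 +
          633207919149056 * z ^ 2 * w ^ 6 +
          1394096693444608 * z ^ 3 * w ^ 5 +
          1755491386327040 * z ^ 4 * w ^ 4 +
          1294669145751552 * z ^ 5 * w ^ 3 +
          537660156231680 * z ^ 6 * w ^ 2 +
          111182788444160 * z ^ 7 * w ^ 1 +
          9280901595136 * z ^ 8) +
        u ^ 14 * v ^ 1 * (959245713408 * w ^ 8 +
          20844896059392 * z ^ 1 * w ^ 7 +
          101238003990528 * z ^ 2 * w ^ 6 +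
          236018420154368 * z ^ 3 * w ^ 5 +
          309270809149440 * z ^ 4 * w ^ 4 +
          235399357595648 * z ^ 5 * w ^ 3 +
          100339082985472 * z ^ 6 * w ^ 2 +
          20854898884608 * z ^ 7 * w ^ 1 +
          1566676615168 * z ^ 8) +
        u ^ 15 * (1278994284544 * z ^ 1 * w ^ 7 +
          7320209195008 * z ^ 2 * w ^ 6 +
          18341369479168 * z ^ 3 * w ^ 5 +
          25156344872960 * z ^ 4 * w ^ 4 +
          19812935794688 * z ^ 5 * w ^ 3 +
          8682573529088 * z ^ 6 * w ^ 2 +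
          1813166948352 * z ^ 7 * w ^ 1 +
          117485469696 * z ^ 8) := fun u v z w _ _ _ _ => by
    positivity
  have h := key (2 * τ - 1) (2 - 2 * τ) (1 * σ - 0) (1 - 1 * σ)
    (by linarith) (by linarith) (by linarith) (by linarith)
  refine nonneg_of_mul_nonneg_right (a := (12288000000 : ℝ)) ?_ (by norm_num)
  refine le_of_le_of_eq h ?_
  simp only [midPoly, poly4, qnum4, anum4]
  ring

set_option maxHeartbeats 4000000 in
set_option maxRecDepth 100000 in
lemma headCert {τ σ : ℝ} (h1 : 0 ≤ τ) (h2 : τ ≤ 1) (h3 : 0 ≤ σ) (h4 : σ ≤ 1) : 0 ≤ headPoly τ σ := by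
  have key : ∀ u v z w : ℝ, 0 ≤ u → 0 ≤ v → 0 ≤ z → 0 ≤ w →
      0 ≤ v ^ 28 * (381564 * w ^ 7 +
          2670948 * z ^ 1 * w ^ 6 +
          8012844 * z ^ 2 * w ^ 5 +
          13354740 * z ^ 3 * w ^ 4 +
          13354740 * z ^ 4 * w ^ 3 +
          8012844 * z ^ 5 * w ^ 2 +
          2670948 * z ^ 6 * w ^ 1 +
          381564 * z ^ 7) +
        u ^ 1 * v ^ 27 * (10683792 * w ^ 7 +
          74786544 * z ^ 1 * w ^ 6 +
          224359632 * z ^ 2 * w ^ 5 +
          373932720 * z ^ 3 * w ^ 4 +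
          373932720 * z ^ 4 * w ^ 3 +
          224359632 * z ^ 5 * w ^ 2 +
          74786544 * z ^ 6 * w ^ 1 +
          10683792 * z ^ 7) +
        u ^ 2 * v ^ 26 * (141842364 * w ^ 7 +
          992065152 * z ^ 1 * w ^ 6 +
          2971631268 * z ^ 2 * w ^ 5 +
          4941661800 * z ^ 3 * w ^ 4 +
          4927154820 * z ^ 4 * w ^ 3 +
          2945518704 * z ^ 5 * w ^ 2 +
          977558172 * z ^ 6 * w ^ 1 +
          138940968 * z ^ 7) +
        u ^ 3 * v ^ 25 * (1191663759 * w ^ 7 +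
          8342647755 * z ^ 1 * w ^ 6 +
          24965818722 * z ^ 2 * w ^ 5 +
          41397608850 * z ^ 3 * w ^ 4 +
          41076971715 * z ^ 4 * w ^ 3 +
          24388671879 * z ^ 5 * w ^ 2 +
          8022010620 * z ^ 6 * w ^ 1 +
          1127536332 * z ^ 7) +
        u ^ 4 * v ^ 24 * (7121409963 * w ^ 7 +
          50139705351 * z ^ 1 * w ^ 6 +
          150341230890 * z ^ 2 * w ^ 5 +
          248863648890 * z ^ 3 * w ^ 4 +
          245587044975 * z ^ 4 * w ^ 3 +
          144445579443 * z ^ 5 * w ^ 2 +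
          46866827436 * z ^ 6 * w ^ 1 +
          6467579580 * z ^ 7) +
        u ^ 5 * v ^ 23 * (32223321438 * w ^ 7 +
          230172251583 * z ^ 1 * w ^ 6 +
          695624849244 * z ^ 2 * w ^ 5 +
          1153468431066 * z ^ 3 * w ^ 4 +
          1133255565654 * z ^ 4 * w ^ 3 +
          659310579459 * z ^ 5 * w ^ 2 +
          210074199432 * z ^ 6 * w ^ 1 +
          28226673660 * z ^ 7) +
        u ^ 6 * v ^ 22 * (114648289086 * w ^ 7 +
          843203601609 * z ^ 1 * w ^ 6 +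
          2593852868556 * z ^ 2 * w ^ 5 +
          4335402276198 * z ^ 3 * w ^ 4 +
          4254498316902 * z ^ 4 * w ^ 3 +
          2449170025749 * z ^ 5 * w ^ 2 +
          763873448856 * z ^ 6 * w ^ 1 +
          99097019844 * z ^ 7) +
        u ^ 7 * v ^ 21 * (328659034935 * w ^ 7 +
          2548700755746 * z ^ 1 * w ^ 6 +
          8095270551534 * z ^ 2 * w ^ 5 +
          13761480229476 * z ^ 3 * w ^ 4 +
          13564542743799 * z ^ 4 * w ^ 3 +
          7748783147826 * z ^ 5 * w ^ 2 +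
          2365097514420 * z ^ 6 * w ^ 1 +
          294605711640 * z ^ 7) +
        u ^ 8 * v ^ 20 * (771776015339 * w ^ 7 +
          6545655404884 * z ^ 1 * w ^ 6 +
          21853785886458 * z ^ 2 * w ^ 5 +
          38171177849324 * z ^ 3 * w ^ 4 +
          38050243346071 * z ^ 4 * w ^ 3 +
          21684034562208 * z ^ 5 * w ^ 2 +
          6504621373140 * z ^ 6 * w ^ 1 +
          779558804592 * z ^ 7) +
        u ^ 9 * v ^ 19 * (1503293036272 * w ^ 7 +
          14696630924264 * z ^ 1 * w ^ 6 +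
          52490686595484 * z ^ 2 * w ^ 5 +
          94960390477852 * z ^ 3 * w ^ 4 +
          96262916648240 * z ^ 4 * w ^ 3 +
          55053415740504 * z ^ 5 * w ^ 2 +
          16362946107456 * z ^ 6 * w ^ 1 +
          1909405244832 * z ^ 7) +
        u ^ 10 * v ^ 18 * (2460368841296 * w ^ 7 +
          29653438570000 * z ^ 1 * w ^ 6 +
          114476057592576 * z ^ 2 * w ^ 5 +
          214930532783372 * z ^ 3 * w ^ 4 +
          221952260599036 * z ^ 4 * w ^ 3 +
          127903053872064 * z ^ 5 * w ^ 2 +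
          37989243799056 * z ^ 6 * w ^ 1 +
          4390905606528 * z ^ 7) +
        u ^ 11 * v ^ 17 * (3454867585091 * w ^ 7 +
          54983177773555 * z ^ 1 * w ^ 6 +
          228677032761690 * z ^ 2 * w ^ 5 +
          443244169278734 * z ^ 3 * w ^ 4 +
          465030531444136 * z ^ 4 * w ^ 3 +
          270212922100608 * z ^ 5 * w ^ 2 +
          80640996730560 * z ^ 6 * w ^ 1 +
          9363159610080 * z ^ 7) +
        u ^ 12 * v ^ 16 * (4341196196959 * w ^ 7 +
          94711168636271 * z ^ 1 * w ^ 6 +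
          417196144500450 * z ^ 2 * w ^ 5 +
          826400879515222 * z ^ 3 * w ^ 4 +
          876051638120312 * z ^ 4 * w ^ 3 +
          512243548128672 * z ^ 5 * w ^ 2 +
          153835129422336 * z ^ 6 * w ^ 1 +
          18068517031392 * z ^ 7) +
        u ^ 13 * v ^ 15 * (5254993951350 * w ^ 7 +
          151045633260231 * z ^ 1 * w ^ 6 +
          687970870406928 * z ^ 2 * w ^ 5 +
          1377224048244418 * z ^ 3 * w ^ 4 +
          1466273295495128 * z ^ 4 * w ^ 3 +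
          859929672562176 * z ^ 5 * w ^ 2 +
          259577114724192 * z ^ 6 * w ^ 1 +
          30876972994464 * z ^ 7) +
        u ^ 14 * v ^ 14 * (6615636451926 * w ^ 7 +
          219968537362497 * z ^ 1 * w ^ 6 +
          1012734255742752 * z ^ 2 * w ^ 5 +
          2029628264765406 * z ^ 3 * w ^ 4 +
          2158880908852200 * z ^ 4 * w ^ 3 +
          1265711101728384 * z ^ 5 * w ^ 2 +
          383147720242592 * z ^ 6 * w ^ 1 +
          46070973130336 * z ^ 7) +
        u ^ 15 * v ^ 13 * (8707588858793 * w ^ 7 +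
          287550816044620 * z ^ 1 * w ^ 6 +
          1315933760402598 * z ^ 2 * w ^ 5 +
          2622352706438596 * z ^ 3 * w ^ 4 +
          2775850725662528 * z ^ 4 * w ^ 3 +
          1622340577739616 * z ^ 5 * w ^ 2 +
          491291914667104 * z ^ 6 * w ^ 1 +
          59541647310656 * z ^ 7) +
        u ^ 16 * v ^ 12 * (11148075093913 * w ^ 7 +
          332214902869730 * z ^ 1 * w ^ 6 +
          1495638416726670 * z ^ 2 * w ^ 5 +
          2950666106655032 * z ^ 3 * w ^ 4 +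
          3099796223961328 * z ^ 4 * w ^ 3 +
          1802133696012384 * z ^ 5 * w ^ 2 +
          544759271412128 * z ^ 6 * w ^ 1 +
          66333978262912 * z ^ 7) +
        u ^ 17 * v ^ 11 * (12863747482172 * w ^ 7 +
          334989916654258 * z ^ 1 * w ^ 6 +
          1475745922540440 * z ^ 2 * w ^ 5 +
          2874927795758096 * z ^ 3 * w ^ 4 +
          2992034756376736 * z ^ 4 * w ^ 3 +
          1727660712448032 * z ^ 5 * w ^ 2 +
          520373120530432 * z ^ 6 * w ^ 1 +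
          63459423893504 * z ^ 7) +
        u ^ 18 * v ^ 10 * (12792989278080 * w ^ 7 +
          291813515019318 * z ^ 1 * w ^ 6 +
          1255443507576384 * z ^ 2 * w ^ 5 +
          2411772069279584 * z ^ 3 * w ^ 4 +
          2483652780807904 * z ^ 4 * w ^ 3 +
          1422899847907296 * z ^ 5 * w ^ 2 +
          426449083105664 * z ^ 6 * w ^ 1 +
          51902877224704 * z ^ 7) +
        u ^ 19 * v ^ 9 * (10730149599278 * w ^ 7 +
          217561614576676 * z ^ 1 * w ^ 6 +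
          914161296522336 * z ^ 2 * w ^ 5 +
          1730502757664928 * z ^ 3 * w ^ 4 +
          1761872241487200 * z ^ 4 * w ^ 3 +
          1000981355576640 * z ^ 5 * w ^ 2 +
          298266960767232 * z ^ 6 * w ^ 1 +
          36085803061248 * z ^ 7) +
        u ^ 20 * v ^ 8 * (7499029564790 * w ^ 7 +
          137461845745312 * z ^ 1 * w ^ 6 +
          564860460038160 * z ^ 2 * w ^ 5 +
          1053076005571808 * z ^ 3 * w ^ 4 +
          1059180587729824 * z ^ 4 * w ^ 3 +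
          596894735485440 * z ^ 5 * w ^ 2 +
          176897030347008 * z ^ 6 * w ^ 1 +
          21172742149632 * z ^ 7) +
        u ^ 21 * v ^ 7 * (4321304147152 * w ^ 7 +
          72748321580576 * z ^ 1 * w ^ 6 +
          292937342777088 * z ^ 2 * w ^ 5 +
          537347718838176 * z ^ 3 * w ^ 4 +
          533407073403264 * z ^ 4 * w ^ 3 +
          298719384130560 * z ^ 5 * w ^ 2 +
          88314130534912 * z ^ 6 * w ^ 1 +
          10396175109632 * z ^ 7) +
        u ^ 22 * v ^ 6 * (2026690884672 * w ^ 7 +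
          31768251747072 * z ^ 1 * w ^ 6 +
          125648370836352 * z ^ 2 * w ^ 5 +
          226308387585888 * z ^ 3 * w ^ 4 +
          221428942048128 * z ^ 4 * w ^ 3 +
          123916529911296 * z ^ 5 * w ^ 2 +
          36862615068160 * z ^ 6 * w ^ 1 +
          4236093518336 * z ^ 7) +
        u ^ 23 * v ^ 5 * (759501325536 * w ^ 7 +
          11218196192544 * z ^ 1 * w ^ 6 +
          43682268378720 * z ^ 2 * w ^ 5 +
          76913490192192 * z ^ 3 * w ^ 4 +
          74058426696192 * z ^ 4 * w ^ 3 +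
          42006441939456 * z ^ 5 * w ^ 2 +
          12817042328064 * z ^ 6 * w ^ 1 +
          1421500259328 * z ^ 7) +
        u ^ 24 * v ^ 4 * (221330649536 * w ^ 7 +
          3113665132192 * z ^ 1 * w ^ 6 +
          11957477039328 * z ^ 2 * w ^ 5 +
          20401053267584 * z ^ 3 * w ^ 4 +
          19306044678400 * z ^ 4 * w ^ 3 +
          11476629149184 * z ^ 5 * w ^ 2 +
          3716363093504 * z ^ 6 * w ^ 1 +
          388754028544 * z ^ 7) +
        u ^ 25 * v ^ 3 * (48113580544 * w ^ 7 +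
          651224736032 * z ^ 1 * w ^ 6 +
          2467169205888 * z ^ 2 * w ^ 5 +
          4008027959808 * z ^ 3 * w ^ 4 +
          3731302353408 * z ^ 4 * w ^ 3 +
          2502548070912 * z ^ 5 * w ^ 2 +
          896648364032 * z ^ 6 * w ^ 1 +
          83807334400 * z ^ 7) +
        u ^ 26 * v ^ 2 * (7289617536 * w ^ 7 +
          95922829536 * z ^ 1 * w ^ 6 +
          357375465984 * z ^ 2 * w ^ 5 +
          533209824000 * z ^ 3 * w ^ 4 +
          492968424960 * z ^ 4 * w ^ 3 +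
          431857208832 * z ^ 5 * w ^ 2 +
          173012736000 * z ^ 6 * w ^ 1 +
          12718080000 * z ^ 7) +
        u ^ 27 * v ^ 1 * (678929888 * w ^ 7 +
          8790615616 * z ^ 1 * w ^ 6 +
          31861629696 * z ^ 2 * w ^ 5 +
          40097945088 * z ^ 3 * w ^ 4 +
          38327969280 * z ^ 4 * w ^ 3 +
          56105395200 * z ^ 5 * w ^ 2 +
          23080960000 * z ^ 6 * w ^ 1 +
          942080000 * z ^ 7) +
        u ^ 28 * (28682976 * w ^ 7 +
          371440128 * z ^ 1 * w ^ 6 +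
          1271651328 * z ^ 2 * w ^ 5 +
          1014961152 * z ^ 3 * w ^ 4 +
          1222310400 * z ^ 4 * w ^ 3 +
          4239360000 * z ^ 5 * w ^ 2 +
          1413120000 * z ^ 6 * w ^ 1) := fun u v z w _ _ _ _ => by
    positivity
  have h := key (1 * τ - 0) (1 - 1 * τ) (1 * σ - 0) (1 - 1 * σ)
    (by linarith) (by linarith) (by linarith) (by linarith)
  refine nonneg_of_mul_nonneg_right (a := (1500000 : ℝ)) ?_ (by norm_num)
  refine le_of_le_of_eq h ?_
  simp only [headPoly, headX, poly4, qnum4, anum4]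
  ring

lemma cst_le : cst ≤ 9241 / 10000 := by
  have h1 : √(2 / 3) ≤ 816497 / 1000000 := sqrt_le_iff.2 ⟨by norm_num, by norm_num⟩
  have h2 := pi_gt_d6
  rw [cst, div_le_iff₀ (by positivity)]
  nlinarith

lemma sqrt_ge {X : ℝ} (hX : 0 ≤ X) :
    816496 / 1000000 * ((4 + 3 * X) / (4 + X)) ≤ √(2 / 3 * (1 + X)) := by
  rw [sqrt_mul (by norm_num)]
  refine mul_le_mul (Real.le_sqrt_of_sq_le (by norm_num)) (Real.le_sqrt_of_sq_le ?_)
    (by positivity) (sqrt_nonneg _)
  rw [div_pow, div_le_iff₀ (by positivity)]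
  nlinarith [pow_nonneg hX 3]

lemma seg_nonneg {τ r : ℝ} (h0 : 0 ≤ τ) (h1 : τ ≤ 1) (hr : 0 ≤ r) : 0 ≤ seg τ r := by
  have hc : 0 ≤ cc τ := div_nonneg (by nlinarith) (by positivity)
  have hs : 0 ≤ ss τ := div_nonneg (by linarith) (by positivity)
  unfold seg
  positivity

lemma key_bound {τ r rd X Xd : ℝ} (h0 : 0 ≤ τ) (h1 : τ ≤ 1) (hr : 0 ≤ r) (hX : 0 ≤ X)
    (hrd : 0 < rd) (hXd : 0 < Xd) (h : 0 ≤ poly4 τ (r * rd) rd (X * Xd) Xd) :
    qbar τ r + seg τ r / 100 ≤ 3 * √(2 / 3 * (1 + X)) * seg τ r := by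
  have hD : 0 < 1 + τ ^ 2 := by positivity
  set qA := 3 * (9241 / 10000) * (1 / 2 * cc τ ^ 2 + 2 / 3 * (cc τ * ss τ) * r +
      1 / 4 * ss τ ^ 2 * r ^ 2) +
    (qbar τ r - 3 * cst * (1 / 2 * cc τ ^ 2 + 2 / 3 * (cc τ * ss τ) * r +
      1 / 4 * ss τ ^ 2 * r ^ 2)) with hqA
  have hq : qbar τ r ≤ qA := by
    have hc : 0 ≤ cc τ := div_nonneg (by nlinarith) (by positivity)
    have hs : 0 ≤ ss τ := div_nonneg (by linarith) (by positivity)
    have hk : 0 ≤ 1 / 2 * cc τ ^ 2 + 2 / 3 * (cc τ * ss τ) * r + 1 / 4 * ss τ ^ 2 * r ^ 2 := by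
      positivity
    linarith [mul_le_mul_of_nonneg_right cst_le hk]
  have hn : qnum4 τ (r * rd) rd = (1 + τ ^ 2) ^ 4 * rd ^ 4 * qA := by
    simp only [hqA, qnum4, qbar, cc, ss, lam]
    field_simp
    ring
  have ha : anum4 τ (r * rd) rd = (1 + τ ^ 2) ^ 4 * rd ^ 4 * seg τ r := by
    simp only [anum4, seg, cc, ss]
    field_simp
  rw [poly4, hn, ha] at h
  have hb : 0 ≤ 3 * (816496 / 1000000) * (4 + 3 * X) * seg τ r -
      (4 + X) * (qA + seg τ r / 100) := by
    refine nonneg_of_mul_nonneg_right (le_of_le_of_eq h ?_)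
      (show 0 < Xd * ((1 + τ ^ 2) ^ 4 * rd ^ 4) by positivity)
    ring
  have h2 : qA + seg τ r / 100 ≤
      3 * (816496 / 1000000 * ((4 + 3 * X) / (4 + X))) * seg τ r := by
    rw [show 3 * (816496 / 1000000 * ((4 + 3 * X) / (4 + X))) * seg τ r =
      3 * (816496 / 1000000) * (4 + 3 * X) * seg τ r / (4 + X) by ring, le_div_iff₀ (by linarith)]
    linarith
  have h3 := mul_le_mul_of_nonneg_right
    (mul_le_mul_of_nonneg_left (sqrt_ge hX) (by norm_num : (0:ℝ) ≤ 3)) (seg_nonneg h0 h1 hr)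
  linarith

/-- Caps whose left tangency lies in `[0,1]`. -/
theorem midIneq {τ r : ℝ} (hr : 0 ≤ r) (hrt : r ≤ τ) (ht : τ ≤ 1) :
    qbar τ r + seg τ r / 100 ≤
      3 * √(2 / 3 * (1 + r ^ 3 * (cc τ + r * ss τ) / (1 + r ^ 2))) * seg τ r := by
  have h0 : 0 ≤ τ := hr.trans hrt
  have hc : 0 ≤ cc τ := div_nonneg (by nlinarith) (by positivity)
  have hs : 0 ≤ ss τ := div_nonneg (by linarith) (by positivity)
  obtain ⟨σ, hσ0, hσ1, rfl⟩ : ∃ σ, 0 ≤ σ ∧ σ ≤ 1 ∧ r = τ * σ := by
    refine ⟨r / τ, div_nonneg hr h0, div_le_one_of_le₀ hrt h0, ?_⟩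
    rcases h0.eq_or_lt with h | h
    · subst h
      simp [le_antisymm hrt hr]
    · field_simp
  have hD : 0 < 1 + τ ^ 2 := by positivity
  refine key_bound (rd := 1) (Xd := (1 + (τ * σ) ^ 2) * (1 + τ ^ 2)) h0 ht hr (by positivity)
    one_pos (by positivity) ?_
  have e : (τ * σ) ^ 3 * (cc τ + τ * σ * ss τ) / (1 + (τ * σ) ^ 2) *
      ((1 + (τ * σ) ^ 2) * (1 + τ ^ 2)) =
      (τ * σ) ^ 3 * (1 - τ ^ 2 + 2 * τ * (τ * σ)) := by
    have : (1 + (τ * σ) ^ 2) ≠ 0 := by positivity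
    simp only [cc, ss]
    field_simp
  rw [mul_one, e]
  rcases le_total τ (1 / 2) with h | h
  · exact midCert0 h0 h hσ0 hσ1
  · exact midCert1 h ht hσ0 hσ1

/-- The excess of `J` over that of the circle, in units of the latter, for head caps. -/
noncomputable def headExcess (τ r : ℝ) : ℝ :=
  3 / 2 * (r ^ 2 * (ss τ - r * cc τ) - 2 / 3 * (ss τ - r * cc τ) ^ 3 + r ^ 3 * cc τ / 3)

/-- Caps containing the point `(0, c + r q)`. -/
theorem headIneq {τ r : ℝ} (h0 : 0 ≤ τ) (h1 : τ ≤ 1) (htr : τ ≤ r) (hrc : r * cc τ ≤ ss τ) :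
    qbar τ r + seg τ r / 100 ≤ 3 * √(2 / 3 * (1 + headExcess τ r)) * seg τ r := by
  have hr : 0 ≤ r := h0.trans htr
  have hD : 0 < 1 + τ ^ 2 := by positivity
  have hc : 0 ≤ cc τ := div_nonneg (by nlinarith) (by positivity)
  have hs : 0 ≤ ss τ := div_nonneg (by linarith) (by positivity)
  have hy : 1 ≤ cc τ + r * ss τ := by
    have e : cc τ + τ * ss τ = 1 := by
      simp only [cc, ss]
      field_simp
      ring
    nlinarith
  have hX : 0 ≤ headExcess τ r := by
    have e : cc τ ^ 2 + ss τ ^ 2 = 1 := by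
      simp only [cc, ss]
      field_simp
      ring
    have h2 : (ss τ - r * cc τ) ^ 2 ≤ r ^ 2 := by
      nlinarith [pow_le_pow_left₀ zero_le_one hy 2]
    have h3 := mul_le_mul_of_nonneg_right h2 (sub_nonneg.2 hrc)
    have h4 : 0 ≤ (ss τ - r * cc τ) ^ 3 := pow_nonneg (sub_nonneg.2 hrc) 3
    have h5 : 0 ≤ r ^ 3 * cc τ := by positivity
    unfold headExcess
    linarith
  have hcs' : r * (1 - τ ^ 2) ≤ 2 * τ := by
    simp only [cc, ss] at hrc
    rw [← mul_div_assoc, div_le_div_iff_of_pos_right hD] at hrc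
    exact hrc
  obtain ⟨σ, hσ0, hσ1, hσ, hrd⟩ : ∃ σ, 0 ≤ σ ∧ σ ≤ 1 ∧
      r * (1 - σ * τ ^ 2) = τ * (1 + σ) ∧ 0 < 1 - σ * τ ^ 2 := by
    rcases h0.eq_or_lt with h | h
    · subst h
      have : r = 0 := by linarith
      exact ⟨0, le_rfl, zero_le_one, by simp [this], by simp⟩
    have hp : 0 < τ * (1 + r * τ) := mul_pos h (by nlinarith)
    refine ⟨(r - τ) / (τ * (1 + r * τ)), div_nonneg (by linarith) hp.le,
      div_le_one_of_le₀ (by nlinarith) hp.le, ?_, ?_⟩
    · field_simp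
      ring
    · rw [sub_pos, div_mul_eq_mul_div, div_lt_one hp]
      nlinarith
  refine key_bound (rd := 1 - σ * τ ^ 2) (Xd := (1 - σ * τ ^ 2) ^ 3 * (1 + τ ^ 2) ^ 3) h0 h1 hr hX
    hrd (by positivity) ?_
  have e : headExcess τ r * ((1 - σ * τ ^ 2) ^ 3 * (1 + τ ^ 2) ^ 3) =
      headX τ (r * (1 - σ * τ ^ 2)) (1 - σ * τ ^ 2) := by
    simp only [headExcess, headX, cc, ss]
    field_simp
  rw [e, hσ]
  exact headCert h0 h1 hσ0 hσ1

end Vale.Agent.P237.Sharp.OneD4
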