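import Mathlib
import Vale.Agent.P237.Sharp.OneD3.Phi
import Vale.Agent.P237.Sharp.OneD4.Ineq

/-!
# P237, sharp route in `ℝ⁴`: the gap functional

`gap f = J √J - ∫ W(t, f) - (J - 2/3)/200` with `J = ∫ f²` and
`W(t, y) = cst y³ + lam (5 t² y³ - y⁵)`; it vanishes at the quarter circle.
-/

open MeasureTheory Set Real

namespace Vale.Agent.P237.Sharp.OneD4

open Vale.Agent.P237.Sharp.OneD3 (circ cap capSup Good circ_nonneg)

/-- The integrand of the nonlinear part. -/
noncomputable def wfun (t y : ℝ) : ℝ := cst * y ^ 3 + lam * (5 * t ^ 2 * y ^ 3 - y ^ 5)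

/-- The slack kept for the equality case. -/
noncomputable def kap : ℝ := 1 / 200

/-- The square integral of a profile. -/
noncomputable def J (f : ℝ → ℝ) : ℝ := ∫ t in (0:ℝ)..1, f t ^ 2

/-- The nonlinear part. -/
noncomputable def Q (f : ℝ → ℝ) : ℝ := ∫ t in (0:ℝ)..1, wfun t (f t)

/-- The gap functional. -/
noncomputable def gap (f : ℝ → ℝ) : ℝ := J f * √(J f) - Q f - kap * (J f - 2 / 3)

/-- Admissible cap parameters. -/
def Adm (p : ℝ × ℝ) : Prop := p.1 < π / 2 ∧ 0 ≤ p.2 ∧ p.2 < π / 2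

lemma J_congr {f g : ℝ → ℝ} (h : ∀ t ∈ Icc (0:ℝ) 1, f t = g t) : J f = J g :=
  intervalIntegral.integral_congr fun t ht => by
    simp only [h t (by rwa [uIcc_of_le zero_le_one] at ht)]

lemma Q_congr {f g : ℝ → ℝ} (h : ∀ t ∈ Icc (0:ℝ) 1, f t = g t) : Q f = Q g :=
  intervalIntegral.integral_congr fun t ht => by
    simp only [h t (by rwa [uIcc_of_le zero_le_one] at ht)]

lemma gap_congr {f g : ℝ → ℝ} (h : ∀ t ∈ Icc (0:ℝ) 1, f t = g t) : gap f = gap g := by
  rw [gap, gap, J_congr h, Q_congr h]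

lemma J_nonneg (f : ℝ → ℝ) : 0 ≤ J f :=
  intervalIntegral.integral_nonneg zero_le_one fun t _ => sq_nonneg _

lemma int_pow {f : ℝ → ℝ} (hf : Good f) (n : ℕ) :
    IntervalIntegrable (fun t => f t ^ n) volume 0 1 := by
  obtain ⟨hm, M, hM⟩ := hf
  exact OneD3.intervalIntegrable_of_bound (hm.pow_const n) (M := M ^ n) fun t ht => by
    rw [abs_pow]; exact pow_le_pow_left₀ (abs_nonneg _) (hM t ht) n

lemma int_wfun {f : ℝ → ℝ} (hf : Good f) :
    IntervalIntegrable (fun t => wfun t (f t)) volume 0 1 := by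
  have h3 := int_pow hf 3
  exact (h3.const_mul cst).add (((h3.continuousOn_mul (g := fun t => 5 * t ^ 2)
    (by fun_prop)).sub (int_pow hf 5)).const_mul lam)

lemma J_mono {f g : ℝ → ℝ} (hf : Good f) (hg : Good g) (h0 : ∀ t ∈ Icc (0:ℝ) 1, 0 ≤ f t)
    (h : ∀ t ∈ Icc (0:ℝ) 1, f t ≤ g t) : J f ≤ J g :=
  intervalIntegral.integral_mono_on zero_le_one (int_pow hf 2) (int_pow hg 2) fun t ht =>
    pow_le_pow_left₀ (h0 t ht) (h t ht) 2

lemma good_cap {p : ℝ × ℝ} (hp : Adm p) : Good (cap p.1 p.2) := by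
  refine ⟨OneD3.measurable_cap _ _, (cos p.2)⁻¹, fun t ht => ?_⟩
  rw [abs_of_nonneg ((circ_nonneg t).trans (OneD3.circ_le_cap ht.1 ht.2 hp.1 hp.2.2))]
  exact OneD3.cap_le ht.1 ht.2 hp.2.1 hp.2.2

lemma good_capSup {S : Finset (ℝ × ℝ)} (h : ∀ p ∈ S, Adm p) : Good (capSup S) := by
  induction S using Finset.induction with
  | empty => exact OneD3.good_circ
  | insert p S hp ih =>
    rw [show capSup (insert p S) = fun t => Max.max (cap p.1 p.2 t) (capSup S t) from
      funext (OneD3.capSup_insert hp)]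
    exact (good_cap (h p (S.mem_insert_self p))).max
      (ih fun q hq => h q (Finset.mem_insert_of_mem hq))

lemma J_circ : J circ = 2 / 3 := by
  have e : J circ = ∫ t in (0:ℝ)..1, (1 - t ^ 2) := by
    refine intervalIntegral.integral_congr fun t ht => ?_
    rw [uIcc_of_le zero_le_one] at ht
    show √(1 - t ^ 2) ^ 2 = _
    rw [Real.sq_sqrt (by nlinarith [ht.1, ht.2])]
  rw [e, intervalIntegral.integral_sub intervalIntegrable_const
    ((continuous_pow 2).intervalIntegrable _ _), integral_pow, intervalIntegral.integral_const]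
  norm_num

lemma hasDerivAt_mul_circ_pow {t : ℝ} (ht : t ∈ Ioo (0:ℝ) 1) (k : ℕ) :
    HasDerivAt (fun t => t * circ t ^ (k + 2))
      (circ t ^ (k + 2) - (k + 2) * (t ^ 2 * circ t ^ k)) t := by
  have hp : 0 < 1 - t ^ 2 := by nlinarith [ht.1, ht.2]
  have hu : circ t ≠ 0 := (Real.sqrt_pos.2 hp).ne'
  have hd : HasDerivAt circ (-t / circ t) t := by
    refine (((hasDerivAt_pow 2 t).const_sub 1).sqrt hp.ne').congr_deriv ?_
    show _ = -t / √(1 - t ^ 2)
    norm_num
    ring
  refine ((hasDerivAt_id' t).mul (hd.fun_pow (k + 2))).congr_deriv ?_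
  push_cast
  field_simp
  ring

lemma integral_circ_pow (k : ℕ) :
    (∫ t in (0:ℝ)..1, circ t ^ (k + 2)) = (k + 2) * ∫ t in (0:ℝ)..1, t ^ 2 * circ t ^ k := by
  have hc : Continuous circ := by unfold circ; fun_prop
  have h := intervalIntegral.integral_eq_sub_of_hasDerivAt_of_le zero_le_one
    (f := fun t => t * circ t ^ (k + 2)) (by fun_prop)
    (fun t ht => hasDerivAt_mul_circ_pow ht k)
    (Continuous.intervalIntegrable (by fun_prop) _ _)
  rw [intervalIntegral.integral_sub (Continuous.intervalIntegrable (by fun_prop) _ _)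
    (Continuous.intervalIntegrable (by fun_prop) _ _), intervalIntegral.integral_const_mul] at h
  simp [circ] at h ⊢
  linarith

lemma integral_circ_cube : (∫ t in (0:ℝ)..1, circ t ^ 3) = 3 * π / 16 := by
  have hc : Continuous circ := by unfold circ; fun_prop
  have h := integral_circ_pow 1
  have e : (∫ t in (0:ℝ)..1, t ^ 2 * circ t ^ 1) =
      (∫ t in (0:ℝ)..1, circ t) - ∫ t in (0:ℝ)..1, circ t ^ 3 := by
    rw [← intervalIntegral.integral_sub (f := circ) (g := fun t => circ t ^ 3) (hc.intervalIntegrable _ _)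
      ((hc.pow 3).intervalIntegrable _ _)]
    refine intervalIntegral.integral_congr fun t ht => ?_
    rw [uIcc_of_le zero_le_one] at ht
    have hs : circ t ^ 2 = 1 - t ^ 2 := Real.sq_sqrt (by nlinarith [ht.1, ht.2])
    linear_combination circ t * hs
  have hJ : (∫ t in (0:ℝ)..1, circ t) = π / 4 := by
    have h := integral_sqrt_one_sub_sq
    rw [← intervalIntegral.integral_add_adjacent_intervals (b := (0:ℝ))] at h
    · have he : (∫ x in (-1:ℝ)..0, √(1 - x ^ 2)) = ∫ x in (0:ℝ)..1, √(1 - x ^ 2) := by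
        have := intervalIntegral.integral_comp_neg (a := (0:ℝ)) (b := 1) fun x => √(1 - x ^ 2)
        simpa using this.symm
      rw [he] at h
      show (∫ x in (0:ℝ)..1, √(1 - x ^ 2)) = _
      linarith
    all_goals exact (by fun_prop : Continuous fun x : ℝ => √(1 - x ^ 2)).intervalIntegrable _ _
  push_cast at h
  rw [e, hJ] at h
  linarith

lemma Q_eq {f : ℝ → ℝ} (h3 : IntervalIntegrable (fun t => f t ^ 3) volume 0 1)
    (h5 : IntervalIntegrable (fun t => f t ^ 5) volume 0 1) :
    Q f = cst * (∫ t in (0:ℝ)..1, f t ^ 3) +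
      lam * (5 * (∫ t in (0:ℝ)..1, t ^ 2 * f t ^ 3) - ∫ t in (0:ℝ)..1, f t ^ 5) := by
  have h23 : IntervalIntegrable (fun t => t ^ 2 * f t ^ 3) volume 0 1 :=
    h3.continuousOn_mul (by fun_prop)
  rw [← intervalIntegral.integral_const_mul 5, ← intervalIntegral.integral_sub (h23.const_mul 5) h5,
    ← intervalIntegral.integral_const_mul, ← intervalIntegral.integral_const_mul,
    ← intervalIntegral.integral_add (h3.const_mul cst) (((h23.const_mul 5).sub h5).const_mul lam)]
  exact intervalIntegral.integral_congr fun t _ => by simp only [wfun]; ring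

lemma gap_circ : gap circ = 0 := by
  have hc : Continuous circ := by unfold circ; fun_prop
  have h5 := integral_circ_pow 3
  rw [gap, J_circ, Q_eq ((hc.pow 3).intervalIntegrable _ _) ((hc.pow 5).intervalIntegrable _ _),
    integral_circ_cube, h5, cst]
  have := pi_pos.ne'
  push_cast
  field_simp
  ring

end Vale.Agent.P237.Sharp.OneD4
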