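import Mathlib
import Vale.Agent.P237.Sharp.OneD3.Deriv
import Vale.Agent.P237.Sharp.OneD4.Phi

/-!
# P237, sharp route in `ℝ⁴`: derivatives of the integrals along a cap
-/

open MeasureTheory Set Real Filter Topology
open scoped Interval

namespace Vale.Agent.P237.Sharp.OneD4

open Vale.Agent.P237.Sharp.OneD3 (cc ss circ tang cap capL capR circ_nonneg circ_le_cap capR_mono
  capR_le capR_of_le measurable_cap cos_pos_of abs_cap_sub_le continuousAt_tang hasDerivAt_tang)

@[fun_prop]
lemma measurable_wfun {g : ℝ → ℝ} (hg : Measurable g) : Measurable fun t => wfun t (g t) := by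
  unfold wfun; fun_prop

section
variable {σ b tc : ℝ}

/-- The derivatives of `∫ cap²` and `∫ W(t, cap)` with respect to the right end. -/
theorem hasDerivAt_J_Q_cap (hσ : σ < π / 2) (hb0 : 0 ≤ b) (hb : b < π / 2) (htc0 : 0 ≤ tc)
    (htc : tc ≤ sin b) (hin : ∀ t ∈ Ioo tc (sin b), tang b t < capL σ t)
    (hout : ∀ t ∈ Ioo 0 tc, capL σ t < tang b t) :
    HasDerivAt (fun x => J (cap σ x))
      (∫ t in tc..sin b, 2 * tang b t * ((sin b - t) / cos b ^ 2)) b ∧
    HasDerivAt (fun x => Q (cap σ x))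
      (∫ t in tc..sin b, (3 * (cst + 5 * lam * t ^ 2) * tang b t ^ 2 - 5 * lam * tang b t ^ 4) *
        ((sin b - t) / cos b ^ 2)) b := by
  set q := sin b with hq
  set B := (b + π / 2) / 2 with hB
  have hbB : b < B := by rw [hB]; linarith
  have hBp : B < π / 2 := by rw [hB]; linarith
  have hq1 : q ≤ 1 := sin_le_one b
  set d : ℝ → ℝ := (Ioc tc q).indicator fun t => (q - t) / cos b ^ 2 with hd
  set M := (cos B)⁻¹ with hM
  have hbd : ∀ t ∈ Icc (0:ℝ) 1, ∀ x ≤ B, |cap σ x t| ≤ M := fun t ht x hx => by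
    rw [abs_of_nonneg ((circ_nonneg t).trans (circ_le_cap ht.1 ht.2 hσ (hx.trans_lt hBp)))]
    exact ((min_le_right _ _).trans (capR_mono ht.1 ht.2 hBp hx)).trans
      (capR_le ht.1 ht.2 (hb0.trans hbB.le) hBp)
  have hmem : ∀ t ∈ Ι (0:ℝ) 1, t ∈ Icc (0:ℝ) 1 := fun t ht => by
    rw [uIoc_of_le zero_le_one] at ht; exact Ioc_subset_Icc_self ht
  -- the pointwise derivative
  have hdiff : ∀ᵐ t, t ∈ Ι (0:ℝ) 1 → HasDerivAt (fun x => cap σ x t) (d t) b := by
    have hnull : ∀ᵐ t : ℝ, t ≠ tc ∧ t ≠ q :=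
      (Measure.ae_ne volume tc).and (Measure.ae_ne volume q)
    filter_upwards [hnull] with t htn htI
    have ht := hmem t htI
    rw [uIoc_of_le zero_le_one] at htI
    rcases lt_or_gt_of_ne htn.2 with htq | htq
    · have harc : arcsin t < b := by
        have := arcsin_lt_arcsin (by linarith [ht.1]) htq hq1
        rwa [hq, arcsin_sin (by linarith [Real.pi_pos]) hb.le] at this
      have hev : ∀ᶠ x in 𝓝 b, arcsin t < x := eventually_gt_nhds harc
      rcases lt_or_gt_of_ne htn.1 with h | h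
      · have hlt := hout t ⟨htI.1, h⟩
        have hev2 : ∀ᶠ x in 𝓝 b, capL σ t < tang x t :=
          (continuousAt_tang (cos_pos_of hb0 hb).ne').eventually_const_lt hlt
        rw [hd, indicator_of_notMem fun hc => absurd hc.1 h.not_gt]
        refine (hasDerivAt_const b (capL σ t)).congr_of_eventuallyEq ?_
        filter_upwards [hev, hev2] with x hx hx2
        rw [cap, capR, max_eq_left hx.le, min_eq_left hx2.le]
      · have hlt := hin t ⟨h, htq⟩
        have hev2 : ∀ᶠ x in 𝓝 b, tang x t < capL σ t :=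
          (continuousAt_tang (cos_pos_of hb0 hb).ne').eventually_lt_const hlt
        rw [hd, indicator_of_mem (show t ∈ Ioc tc q from ⟨h, htq.le⟩)]
        refine (hasDerivAt_tang (t := t) (cos_pos_of hb0 hb).ne').congr_of_eventuallyEq ?_
        filter_upwards [hev, hev2] with x hx hx2
        rw [cap, capR, max_eq_left hx.le, min_eq_right hx2.le]
    · have harc : b < arcsin t := by
        have := arcsin_lt_arcsin (neg_one_le_sin b) htq ht.2
        rwa [arcsin_sin (by linarith [Real.pi_pos]) hb.le] at this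
      rw [hd, indicator_of_notMem fun hc => absurd hc.2 htq.not_ge]
      refine (hasDerivAt_const b (min (capL σ t) (circ t))).congr_of_eventuallyEq ?_
      filter_upwards [eventually_lt_nhds harc] with x hx
      rw [cap, capR_of_le ht.1 ht.2 hx.le]
  have hdm : Measurable d := (by fun_prop : Measurable fun t => (q - t) / cos b ^ 2).indicator
    measurableSet_Ioc
  have hcB := cos_pos_of (hb0.trans hbB.le) hBp
  have hs : Iio B ∈ 𝓝 b := Iio_mem_nhds hbB
  have hC : 0 ≤ 2 / cos B ^ 2 := by positivity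
  have hgood : OneD3.Good (cap σ b) := ⟨measurable_cap σ b, _, fun t ht => hbd t ht b hbB.le⟩
  have hpow : ∀ n : ℕ, ∀ t ∈ Icc (0:ℝ) 1, ∀ u < B, ∀ v < B,
      |cap σ u t ^ n - cap σ v t ^ n| ≤ n * M ^ (n - 1) * (2 / cos B ^ 2) * |u - v| := by
    intro n t ht u hu v hv
    refine (abs_pow_sub_pow_le _ _ n).trans ?_
    have h1 := abs_cap_sub_le (σ := σ) hBp ht.1 ht.2 hu.le hv.le
    have h2 : max |cap σ u t| |cap σ v t| ^ (n - 1) ≤ M ^ (n - 1) :=
      pow_le_pow_left₀ (le_max_of_le_left (abs_nonneg _))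
        (max_le (hbd t ht u hu.le) (hbd t ht v hv.le)) _
    calc |cap σ u t - cap σ v t| * n * max |cap σ u t| |cap σ v t| ^ (n - 1)
        ≤ (2 / cos B ^ 2 * |u - v|) * n * M ^ (n - 1) := by gcongr
      _ = _ := by ring
  have hint : ∀ g : ℝ → ℝ → ℝ, (∫ t in (0:ℝ)..1, g t (cap σ b t) * d t) =
      ∫ t in tc..q, g t (tang b t) * ((q - t) / cos b ^ 2) := by
    intro g
    rw [intervalIntegral.integral_of_le htc,
      ← (show Ioc (0:ℝ) 1 ∩ Ioc tc q = Ioc tc q from inter_eq_right.2 (Ioc_subset_Ioc htc0 hq1)),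
      ← setIntegral_indicator measurableSet_Ioc, ← intervalIntegral.integral_of_le zero_le_one]
    refine intervalIntegral.integral_congr_ae ?_
    have hne : ∀ᵐ t : ℝ, t ≠ q := Measure.ae_ne volume q
    filter_upwards [hne] with t htne htI
    by_cases hm : t ∈ Ioc tc q
    · rw [hd, indicator_of_mem hm, indicator_of_mem hm]
      have htq : t < q := lt_of_le_of_ne hm.2 htne
      have harc : arcsin t ≤ b := by
        have := arcsin_le_arcsin htq.le
        rwa [hq, arcsin_sin (by linarith [Real.pi_pos]) hb.le] at this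
      rw [cap, capR, max_eq_left harc, min_eq_right (hin t ⟨hm.1, htq⟩).le]
    · rw [hd, indicator_of_notMem hm, indicator_of_notMem hm, mul_zero]
  constructor
  · have h := intervalIntegral.hasDerivAt_integral_of_dominated_loc_of_lip (μ := volume)
      (F := fun x t => cap σ x t ^ 2) (F' := fun t => 2 * cap σ b t * d t)
      (bound := fun _ => 2 * M ^ 1 * (2 / cos B ^ 2)) (x₀ := b) (a := (0:ℝ)) (b := 1) hs
      (Eventually.of_forall fun x => ((measurable_cap σ x).pow_const 2).aestronglyMeasurable)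
      (int_pow hgood 2) (by fun_prop : Measurable fun t => 2 * cap σ b t * d t).aestronglyMeasurable
      (ae_of_all _ fun t ht => LipschitzOnWith.of_dist_le_mul fun u hu v hv => by
        rw [Real.coe_nnabs, Real.dist_eq, Real.dist_eq,
          abs_of_nonneg (by positivity : 0 ≤ 2 * M ^ 1 * (2 / cos B ^ 2))]
        simpa using hpow 2 t (hmem t ht) u hu v hv)
      intervalIntegrable_const
      (hdiff.mono fun t ht htI => ((ht htI).pow 2).congr_deriv (by norm_num))
    exact h.2.congr_deriv (hint fun _ y => 2 * y)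
  · set L1 := (|cst| + 5 * |lam|) * (3 * M ^ 2) + |lam| * (5 * M ^ 4) with hL1
    have hL : 0 ≤ L1 * (2 / cos B ^ 2) := by positivity
    have h := intervalIntegral.hasDerivAt_integral_of_dominated_loc_of_lip (μ := volume)
      (F := fun x t => wfun t (cap σ x t))
      (F' := fun t =>
        (3 * (cst + 5 * lam * t ^ 2) * cap σ b t ^ 2 - 5 * lam * cap σ b t ^ 4) * d t)
      (bound := fun _ => L1 * (2 / cos B ^ 2))
      (x₀ := b) (a := (0:ℝ)) (b := 1) hs
      (Eventually.of_forall fun x => (measurable_wfun (measurable_cap σ x)).aestronglyMeasurable)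
      (int_wfun hgood)
      (by fun_prop : Measurable fun t =>
        (3 * (cst + 5 * lam * t ^ 2) * cap σ b t ^ 2 - 5 * lam * cap σ b t ^ 4) * d t
        ).aestronglyMeasurable
      (ae_of_all _ fun t ht => LipschitzOnWith.of_dist_le_mul fun u hu v hv => by
        have ht' := hmem t ht
        rw [Real.coe_nnabs, Real.dist_eq, Real.dist_eq, abs_of_nonneg hL]
        have e : wfun t (cap σ u t) - wfun t (cap σ v t) =
            (cst + 5 * lam * t ^ 2) * (cap σ u t ^ 3 - cap σ v t ^ 3) -
              lam * (cap σ u t ^ 5 - cap σ v t ^ 5) := by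
          simp only [wfun]; ring
        have ha : |cst + 5 * lam * t ^ 2| ≤ |cst| + 5 * |lam| := by
          refine (abs_add_le _ _).trans (add_le_add le_rfl ?_)
          rw [abs_mul, abs_mul, abs_pow, abs_of_nonneg ht'.1, abs_of_nonneg (by norm_num : (0:ℝ) ≤ 5)]
          exact mul_le_of_le_one_right (by positivity) (pow_le_one₀ ht'.1 ht'.2)
        rw [e]
        refine (abs_sub _ _).trans ?_
        rw [abs_mul, abs_mul]
        have h3 := hpow 3 t ht' u hu v hv
        have h5 := hpow 5 t ht' u hu v hv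
        push_cast at h3 h5
        refine (add_le_add (mul_le_mul ha h3 (abs_nonneg _) (by positivity))
          (mul_le_mul_of_nonneg_left h5 (abs_nonneg lam))).trans_eq ?_
        rw [hL1]
        ring)
      intervalIntegrable_const
      (hdiff.mono fun t ht htI => by
        have h1 := ht htI
        refine (((h1.pow 3).const_mul cst).add
          ((((h1.pow 3).const_mul (5 * t ^ 2)).sub (h1.pow 5)).const_mul lam)).congr_deriv ?_
        norm_num
        ring)
    exact h.2.congr_deriv (hint fun t y => 3 * (cst + 5 * lam * t ^ 2) * y ^ 2 - 5 * lam * y ^ 4)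

/-- The derivative of `∫ cap²` for a segment of length `r`. -/
lemma integral_seg_J {τ r : ℝ} (hb : cos b ≠ 0) (hc : cc τ = cos b) (hs : ss τ = sin b) :
    (∫ t in (sin b - r * cos b)..sin b, 2 * tang b t * ((sin b - t) / cos b ^ 2)) =
      2 * r ^ 2 * seg τ r := by
  set q := sin b
  set c := cos b
  have hqc : q ^ 2 + c ^ 2 = 1 := sin_sq_add_cos_sq b
  set H : ℝ → ℝ := fun x => c * x ^ 2 + 2 / 3 * q * x ^ 3 with hH
  have hHd : ∀ x, HasDerivAt H (2 * x * (c + q * x)) x := by
    intro x
    refine (((hasDerivAt_pow 2 x).const_mul c).add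
      ((hasDerivAt_pow 3 x).const_mul (2 / 3 * q))).congr_deriv ?_
    norm_num
    ring
  have hG : ∀ t, HasDerivAt (fun t => -H ((q - t) / c)) (2 * tang b t * ((q - t) / c ^ 2)) t := by
    intro t
    refine (((hHd ((q - t) / c)).comp t (((hasDerivAt_id t).const_sub q).div_const c)).neg
      ).congr_deriv ?_
    rw [show tang b t = (1 - t * q) / c from rfl]
    have e2 : c + q * ((q - t) / c) = (1 - t * q) / c := by
      rw [eq_div_iff hb, add_mul, mul_assoc, div_mul_cancel₀ _ hb]; linear_combination hqc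
    rw [e2]
    field_simp
  rw [intervalIntegral.integral_eq_sub_of_hasDerivAt (fun t _ => hG t)
    ((by unfold tang; fun_prop : Continuous fun t =>
      2 * tang b t * ((q - t) / c ^ 2)).intervalIntegrable _ _)]
  rw [sub_self, zero_div, show (q - (q - r * c)) / c = r by field_simp; ring]
  simp only [hH, seg, hc, hs]
  ring

/-- The derivative of `∫ W(t, cap)` for a segment of length `r`. -/
lemma integral_seg_Q {τ r : ℝ} (hb : cos b ≠ 0) (hc : cc τ = cos b) (hs : ss τ = sin b) :
    (∫ t in (sin b - r * cos b)..sin b,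
        (3 * (cst + 5 * lam * t ^ 2) * tang b t ^ 2 - 5 * lam * tang b t ^ 4) *
          ((sin b - t) / cos b ^ 2)) = r ^ 2 * qbar τ r := by
  set q := sin b
  set c := cos b
  have hqc : q ^ 2 + c ^ 2 = 1 := sin_sq_add_cos_sq b
  set a2 := 3 * cst * (1 / 2 * c ^ 2) + 15 * lam * (1 / 2 * (c * q) ^ 2) -
    5 * lam * (1 / 2 * c ^ 4) with ha2
  set a3 := 3 * cst * (2 / 3 * (c * q)) + 15 * lam * (2 / 3 * (c * q * (q ^ 2 - c ^ 2))) -
    5 * lam * (4 / 3 * (c ^ 3 * q)) with ha3
  set a4 := 3 * cst * (1 / 4 * q ^ 2) +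
    15 * lam * (1 / 4 * ((q ^ 2 - c ^ 2) ^ 2 - 2 * (c * q) ^ 2)) -
    5 * lam * (3 / 2 * (c ^ 2 * q ^ 2)) with ha4
  set a5 := -(15 * lam * (2 / 5 * (c * q * (q ^ 2 - c ^ 2)))) -
    5 * lam * (4 / 5 * (c * q ^ 3)) with ha5
  set a6 := 15 * lam * (1 / 6 * (c * q) ^ 2) - 5 * lam * (1 / 6 * q ^ 4) with ha6
  set H : ℝ → ℝ := fun x => a2 * x ^ 2 + a3 * x ^ 3 + a4 * x ^ 4 + a5 * x ^ 5 + a6 * x ^ 6 with hH
  have hHd : ∀ x, HasDerivAt H (x * (3 * (cst + 5 * lam * (q - c * x) ^ 2) * (c + q * x) ^ 2 -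
      5 * lam * (c + q * x) ^ 4)) x := by
    intro x
    refine ((((((hasDerivAt_pow 2 x).const_mul a2).add ((hasDerivAt_pow 3 x).const_mul a3)).add
      ((hasDerivAt_pow 4 x).const_mul a4)).add ((hasDerivAt_pow 5 x).const_mul a5)).add
      ((hasDerivAt_pow 6 x).const_mul a6)).congr_deriv ?_
    simp only [ha2, ha3, ha4, ha5, ha6]
    norm_num
    ring
  have hG : ∀ t, HasDerivAt (fun t => -H ((q - t) / c))
      ((3 * (cst + 5 * lam * t ^ 2) * tang b t ^ 2 - 5 * lam * tang b t ^ 4) *
        ((q - t) / c ^ 2)) t := by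
    intro t
    refine (((hHd ((q - t) / c)).comp t (((hasDerivAt_id t).const_sub q).div_const c)).neg
      ).congr_deriv ?_
    rw [show tang b t = (1 - t * q) / c from rfl]
    have e1 : q - c * ((q - t) / c) = t := by field_simp; ring
    have e2 : c + q * ((q - t) / c) = (1 - t * q) / c := by
      rw [eq_div_iff hb, add_mul, mul_assoc, div_mul_cancel₀ _ hb]; linear_combination hqc
    rw [e1, e2]
    field_simp
  rw [intervalIntegral.integral_eq_sub_of_hasDerivAt (fun t _ => hG t)
    ((by unfold tang; fun_prop : Continuous fun t =>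
      (3 * (cst + 5 * lam * t ^ 2) * tang b t ^ 2 - 5 * lam * tang b t ^ 4) *
        ((q - t) / c ^ 2)).intervalIntegrable _ _)]
  rw [sub_self, zero_div, show (q - (q - r * c)) / c = r by field_simp; ring]
  simp only [hH, ha2, ha3, ha4, ha5, ha6, qbar, hc, hs]
  ring

end

end Vale.Agent.P237.Sharp.OneD4
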