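import Mathlib
import Vale.Agent.P237.Sharp.OneD4.Phi

/-!
# P237, sharp route in `ℝ⁴`: unions of caps

`∫ max(f, g)^k + ∫ min(f, g)^k = ∫ f^k + ∫ g^k`, and `x ↦ x √x` is convex, so the gap is
superadditive; the overlap of the rightmost cap with the others is again a single cap.
-/

open MeasureTheory Set Real

namespace Vale.Agent.P237.Sharp.OneD4

open Vale.Agent.P237.Sharp.OneD3 (circ cap capSup Good circ_nonneg circ_le_cap circ_le_capSup
  cap_le_cap cap_le_capSup capSup_insert min_cap cap_zero)

lemma convexOn_mul_sqrt : ConvexOn ℝ (Ici 0) fun x : ℝ => x * √x := by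
  refine (convexOn_rpow (by norm_num : (1:ℝ) ≤ 3 / 2)).congr fun x hx => ?_
  simp only [Real.sqrt_eq_rpow]
  nth_rw 2 [← Real.rpow_one x]
  rw [← Real.rpow_add' hx (by norm_num)]
  norm_num

lemma mul_sqrt_superadd {n f g : ℝ} (hn : 0 ≤ n) (hf : n ≤ f) (hg : n ≤ g) :
    f * √f + g * √g ≤ (f + g - n) * √(f + g - n) + n * √n := by
  rcases (show n ≤ f + g - n by linarith).eq_or_lt with e | h
  · have h1 : f = n := by linarith
    have h2 : g = n := by linarith
    subst h1; subst h2
    simp
  have hx : 0 < f + g - n - n := by linarith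
  set θ := (f - n) / (f + g - n - n) with hθ
  have h0 : 0 ≤ θ := div_nonneg (by linarith) hx.le
  have h1 : θ ≤ 1 := (div_le_one hx).2 (by linarith)
  have hc := convexOn_mul_sqrt.2 (show n ∈ Ici (0:ℝ) from hn)
    (show f + g - n ∈ Ici (0:ℝ) from hn.trans h.le)
  have a := hc (show 0 ≤ 1 - θ by linarith) h0 (by ring)
  have b := hc h0 (show 0 ≤ 1 - θ by linarith) (by ring)
  simp only [smul_eq_mul] at a b
  have e1 : (1 - θ) * n + θ * (f + g - n) = f := by rw [hθ]; field_simp; ring
  have e2 : θ * n + (1 - θ) * (f + g - n) = g := by linarith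
  rw [e1] at a
  rw [e2] at b
  linarith

lemma gap_max {f g : ℝ → ℝ} (hf : Good f) (hg : Good g) (h0 : ∀ t ∈ Icc (0:ℝ) 1, 0 ≤ f t)
    (h0' : ∀ t ∈ Icc (0:ℝ) 1, 0 ≤ g t) :
    gap f + gap g - gap (fun t => min (f t) (g t)) ≤ gap fun t => max (f t) (g t) := by
  have hx := hf.max hg
  have hn := hf.min hg
  have hJ : J (fun t => max (f t) (g t)) = J f + J g - J fun t => min (f t) (g t) := by
    rw [eq_sub_iff_add_eq, J, J, J, J, ← intervalIntegral.integral_add (int_pow hx 2) (int_pow hn 2),
      ← intervalIntegral.integral_add (int_pow hf 2) (int_pow hg 2)]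
    refine intervalIntegral.integral_congr fun t _ => ?_
    rcases le_total (f t) (g t) with h | h
    · simp only [max_eq_right h, min_eq_left h]; ring
    · simp only [max_eq_left h, min_eq_right h]
  have hQ : Q (fun t => max (f t) (g t)) = Q f + Q g - Q fun t => min (f t) (g t) := by
    rw [eq_sub_iff_add_eq, Q, Q, Q, Q, ← intervalIntegral.integral_add (int_wfun hx) (int_wfun hn),
      ← intervalIntegral.integral_add (int_wfun hf) (int_wfun hg)]
    refine intervalIntegral.integral_congr fun t _ => ?_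
    rcases le_total (f t) (g t) with h | h
    · simp only [max_eq_right h, min_eq_left h]; ring
    · simp only [max_eq_left h, min_eq_right h]
  have hm0 : ∀ t ∈ Icc (0:ℝ) 1, 0 ≤ min (f t) (g t) := fun t ht => le_min (h0 t ht) (h0' t ht)
  have h1 := J_mono hn hf hm0 fun t _ => min_le_left _ _
  have h2 := J_mono hn hg hm0 fun t _ => min_le_right _ _
  have h3 := mul_sqrt_superadd (J_nonneg fun t => min (f t) (g t)) h1 h2
  simp only [gap, hJ, hQ]
  linarith

/-- Monotonicity along single caps gives nonnegativity of the gap of every union of caps. -/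
theorem gap_capSup_nonneg
    (hmono : ∀ σ : ℝ, σ < π / 2 → MonotoneOn (fun b => gap (cap σ b)) (Ico 0 (π / 2)))
    (S : Finset (ℝ × ℝ)) (hS : ∀ p ∈ S, Adm p) : 0 ≤ gap (capSup S) := by
  have hpi : (0:ℝ) < π / 2 := by positivity
  induction S using Finset.strongInduction with
  | H S ih =>
    rcases S.eq_empty_or_nonempty with rfl | hne
    · exact gap_circ.ge
    obtain ⟨n, hn, hnmax⟩ := S.exists_max_image (fun p => p.2) hne
    have hna := hS n hn
    have hSn : capSup S = fun t => max (cap n.1 n.2 t) (capSup (S.erase n) t) := funext fun t => by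
      rw [← capSup_insert (Finset.notMem_erase n S), Finset.insert_erase hn]
    rcases (S.erase n).eq_empty_or_nonempty with he | hne'
    · have : gap (capSup S) = gap (cap n.1 n.2) := gap_congr fun t ht => by
        rw [hSn, he]; exact max_eq_left (circ_le_cap ht.1 ht.2 hna.1 hna.2.2)
      rw [this]
      have h0 : gap (cap n.1 0) = 0 :=
        (gap_congr fun t ht => cap_zero ht.1 ht.2 hna.1).trans gap_circ
      exact h0.ge.trans (hmono n.1 hna.1 ⟨le_rfl, hpi⟩ ⟨hna.2.1, hna.2.2⟩ hna.2.1)
    obtain ⟨k, hk, hkmax⟩ := (S.erase n).exists_max_image (fun p => p.2) hne'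
    have hkS := Finset.mem_of_mem_erase hk
    have hka := hS k hkS
    rcases le_or_gt n.1 k.1 with h | h
    · -- `k` is dominated by `n`
      have : gap (capSup S) = gap (capSup (S.erase k)) := gap_congr fun t ht => by
        rw [← Finset.insert_erase hkS, capSup_insert (Finset.notMem_erase k S),
          Finset.insert_erase hkS]
        refine max_eq_right ((cap_le_cap ht.1 ht.2 hka.1 hna.2.2 h (hnmax k hkS)).trans ?_)
        exact cap_le_capSup (Finset.mem_erase.2 ⟨fun e => Finset.ne_of_mem_erase hk e.symm, hn⟩) t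
      rw [this]
      exact ih _ (Finset.erase_ssubset hkS) fun p hp => hS p (Finset.mem_of_mem_erase hp)
    · have hmin : ∀ t ∈ Icc (0:ℝ) 1,
          min (cap n.1 n.2 t) (capSup (S.erase n) t) = cap n.1 k.2 t := by
        intro t ht
        refine le_antisymm ?_ (le_min ?_ ((cap_le_cap ht.1 ht.2 hna.1 hka.2.2 h.le le_rfl).trans
          (cap_le_capSup hk t)))
        · rcases (Finset.le_fold_max _).1 (le_refl (capSup (S.erase n) t)) with hc | ⟨p, hp, hc⟩
          · exact (min_le_right _ _).trans (hc.trans (circ_le_cap ht.1 ht.2 hna.1 hka.2.2))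
          · have hpa := hS p (Finset.mem_of_mem_erase hp)
            refine (min_le_min_left _ hc).trans ?_
            rw [min_cap ht.1 ht.2 hna.1 hpa.1 hna.2.2 hpa.2.2]
            exact cap_le_cap ht.1 ht.2 (max_lt hna.1 hpa.1) hka.2.2 (le_max_left _ _)
              ((min_le_right _ _).trans (hkmax p hp))
        · exact cap_le_cap ht.1 ht.2 hna.1 hna.2.2 le_rfl (hnmax k hkS)
      have hB : Good (capSup (S.erase n)) :=
        good_capSup fun p hp => hS p (Finset.mem_of_mem_erase hp)
      have hA : Good (cap n.1 n.2) := good_cap hna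
      rw [hSn]
      refine le_trans ?_ (gap_max hA hB
        (fun t ht => (circ_nonneg t).trans (circ_le_cap ht.1 ht.2 hna.1 hna.2.2))
        fun t _ => (circ_nonneg t).trans (circ_le_capSup _ t))
      rw [gap_congr hmin]
      have h1 : gap (cap n.1 k.2) ≤ gap (cap n.1 n.2) :=
        hmono n.1 hna.1 ⟨hka.2.1, hka.2.2⟩ ⟨hna.2.1, hna.2.2⟩ (hnmax k hkS)
      have h2 := ih _ (Finset.erase_ssubset hn) fun p hp => hS p (Finset.mem_of_mem_erase hp)
      linarith

end Vale.Agent.P237.Sharp.OneD4
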