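import Mathlib
import Vale.Agent.P237.Sharp.OneD3.Mono
import Vale.Agent.P237.Sharp.OneD4.Deriv
import Vale.Agent.P237.Sharp.OneD4.Union

/-!
# P237, sharp route in `ℝ⁴`: monotonicity of the gap along single caps

Along a cap the segment on the moving tangent has length `r` and
`d gap/db = r² (3√J seg - qbar - seg/100)`, where `J` is an explicit rational function of `r` and
the tangency point.
-/

open MeasureTheory Set Real

namespace Vale.Agent.P237.Sharp.OneD4

open Vale.Agent.P237.Sharp.OneD3 (cc ss circ tang cap capL circ_nonneg circ_le_cap cap_zero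
  cap_eq_circ cos_pos_of cc_tan_half ss_tan_half tan_le_tan_of_le seg_empty seg_head seg_flat)

variable {σ b : ℝ}

lemma two_thirds_le_J (hσ : σ < π / 2) (hb0 : 0 ≤ b) (hb : b < π / 2) :
    2 / 3 ≤ J (cap σ b) := by
  rw [← J_circ]
  exact J_mono OneD3.good_circ (good_cap (p := (σ, b)) ⟨hσ, hb0, hb⟩) (fun t _ => circ_nonneg t)
    fun t ht => circ_le_cap ht.1 ht.2 hσ hb

/-- The derivatives along a cap, for a segment of length `r`. -/
lemma derivs_cap {r τ : ℝ} (hσ : σ < π / 2) (hb0 : 0 ≤ b) (hb : b < π / 2) (hr : 0 ≤ r)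
    (hrc : r * cos b ≤ sin b) (hτ : τ = tan (b / 2))
    (hin : ∀ t ∈ Ioo (sin b - r * cos b) (sin b), tang b t < capL σ t)
    (hout : ∀ t ∈ Ioo 0 (sin b - r * cos b), capL σ t < tang b t) :
    HasDerivAt (fun x => J (cap σ x)) (r ^ 2 * cos b + 2 / 3 * r ^ 3 * sin b) b ∧
      HasDerivAt (fun x => gap (cap σ x))
        (r ^ 2 * (3 * √(J (cap σ b)) * seg τ r - qbar τ r - seg τ r / 100)) b := by
  have hc := cos_pos_of hb0 hb
  have hh : cos (b / 2) ≠ 0 := (cos_pos_of (by linarith) (by linarith)).ne'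
  have hcc : cc τ = cos b := hτ ▸ cc_tan_half hh
  have hss : ss τ = sin b := hτ ▸ ss_tan_half hh
  obtain ⟨h1, h2⟩ := hasDerivAt_J_Q_cap hσ hb0 hb (sub_nonneg.2 hrc)
    (sub_le_self _ (mul_nonneg hr hc.le)) hin hout
  rw [integral_seg_J (τ := τ) hc.ne' hcc hss] at h1
  rw [integral_seg_Q (τ := τ) hc.ne' hcc hss] at h2
  refine ⟨h1.congr_deriv (by rw [seg, hcc, hss]; ring), ?_⟩
  have hJ : 0 < J (cap σ b) := lt_of_lt_of_le (by norm_num) (two_thirds_le_J hσ hb0 hb)
  show HasDerivAt (fun x => J (cap σ x) * √(J (cap σ x)) - Q (cap σ x) -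
    kap * (J (cap σ x) - 2 / 3)) _ b
  refine (((h1.mul (h1.sqrt hJ.ne')).sub h2).sub
    ((h1.sub_const (2 / 3)).const_mul kap)).congr_deriv ?_
  have hs : √(J (cap σ b)) ≠ 0 := (Real.sqrt_pos.2 hJ).ne'
  have hsq : √(J (cap σ b)) ^ 2 = J (cap σ b) := Real.sq_sqrt hJ.le
  rw [kap]
  generalize √(J (cap σ b)) = s at hs hsq ⊢
  rw [← hsq]
  field_simp
  ring

/-- For `σ ≥ 0` the gap grows along the cap. -/
lemma deriv_gap_pos (hσ0 : 0 ≤ σ) (hσ : σ < π / 2) (hb0 : 0 ≤ b) (hb : b < π / 2) :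
    ∃ D, HasDerivAt (fun x => gap (cap σ x)) D b ∧ 0 ≤ D := by
  have hpi := Real.pi_pos
  have hτ1 : tan (b / 2) ≤ 1 :=
    tan_pi_div_four ▸ tan_le_tan_of_le (by linarith) (by linarith) (by linarith)
  rcases le_or_gt b σ with hbσ | hσb
  · obtain ⟨-, h⟩ := derivs_cap hσ hb0 hb le_rfl
      (by rw [zero_mul]; exact sin_nonneg_of_nonneg_of_le_pi hb0 (by linarith)) rfl
      (fun t ht => by rw [zero_mul, sub_zero] at ht; exact absurd ht.1 ht.2.not_gt)
      (seg_empty hσ hb0 hbσ)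
    exact ⟨_, h, by simp⟩
  have hder : ∀ x, σ ≤ x → x < π / 2 → HasDerivAt (fun x => J (cap σ x))
      (tan ((x - σ) / 2) ^ 2 * cos x + 2 / 3 * tan ((x - σ) / 2) ^ 3 * sin x) x := by
    intro x hx hx'
    rcases hx.eq_or_lt with rfl | hx
    · rw [sub_self, zero_div, tan_zero]
      exact (derivs_cap hσ hσ0 hσ le_rfl
        (by rw [zero_mul]; exact sin_nonneg_of_nonneg_of_le_pi hσ0 (by linarith)) rfl
        (fun t ht => by rw [zero_mul, sub_zero] at ht; exact absurd ht.1 ht.2.not_gt)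
        (seg_empty hσ hσ0 le_rfl)).1
    · obtain ⟨hr, hts, hi, ho⟩ := OneD3.seg_nonneg hσ0 hx hx'
      exact (derivs_cap hσ (hσ0.trans hx.le) hx' hr (sub_nonneg.1
        ((sin_nonneg_of_nonneg_of_le_pi hσ0 (by linarith)).trans hts)) rfl hi ho).1
  have hkey : ∀ x, cos ((x - σ) / 2) ≠ 0 → cos x + cos σ =
      2 * cos ((x - σ) / 2) ^ 2 * (cos x + tan ((x - σ) / 2) * sin x) := by
    intro x hx
    have e : cos σ = cos (x - 2 * ((x - σ) / 2)) := by congr 1; ring
    rw [e, cos_sub, sin_two_mul, cos_two_mul, tan_eq_sin_div_cos]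
    field_simp
    ring
  have hG : ∀ x ∈ Icc σ b, HasDerivAt
      (fun x => J (cap σ x) - tan ((x - σ) / 2) ^ 3 * (cos x + cos σ) / 3) 0 x := by
    intro x hx
    have hc : cos ((x - σ) / 2) ≠ 0 :=
      (cos_pos_of (by linarith [hx.1]) (by linarith [hx.2])).ne'
    have h1 := (((hasDerivAt_tan hc).comp x (((hasDerivAt_id x).sub_const σ).div_const 2)).pow 3).mul
      ((hasDerivAt_cos x).add_const (cos σ))
    refine ((hder x hx.1 (hx.2.trans_lt hb)).sub (h1.div_const 3)).congr_deriv ?_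
    simp only [Pi.pow_apply, Function.comp_apply, id]
    rw [hkey x hc]
    generalize tan ((x - σ) / 2) = r
    field_simp
    norm_num
    ring
  have hJ := constant_of_has_deriv_right_zero
    (fun x hx => (hG x hx).continuousAt.continuousWithinAt)
    (fun x hx => (hG x (Ico_subset_Icc_self hx)).hasDerivWithinAt) b ⟨hσb.le, le_rfl⟩
  simp only [sub_self, zero_div, tan_zero] at hJ
  rw [J_congr (g := circ) fun t ht => cap_eq_circ ht.1 ht.2 hσ0 hσ hσ le_rfl, J_circ] at hJ
  have hm : cos ((b - σ) / 2) ≠ 0 := (cos_pos_of (by linarith) (by linarith)).ne'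
  have hh : cos (b / 2) ≠ 0 := (cos_pos_of (by linarith) (by linarith)).ne'
  have hJ' : J (cap σ b) = 2 / 3 * (1 + tan ((b - σ) / 2) ^ 3 *
      (cc (tan (b / 2)) + tan ((b - σ) / 2) * ss (tan (b / 2))) /
        (1 + tan ((b - σ) / 2) ^ 2)) := by
    rw [cc_tan_half hh, ss_tan_half hh, div_eq_mul_inv _ (1 + tan ((b - σ) / 2) ^ 2),
      inv_one_add_tan_sq hm]
    rw [hkey b hm] at hJ
    linarith
  obtain ⟨hr, hts, hi, ho⟩ := OneD3.seg_nonneg hσ0 hσb hb
  obtain ⟨-, h⟩ := derivs_cap hσ hb0 hb hr (sub_nonneg.1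
    ((sin_nonneg_of_nonneg_of_le_pi hσ0 (by linarith)).trans hts)) rfl hi ho
  have hineq := midIneq hr
    (tan_le_tan_of_le (x := (b - σ) / 2) (y := b / 2) (by linarith) (by linarith) (by linarith)) hτ1
  rw [← hJ'] at hineq
  exact ⟨_, h, mul_nonneg (sq_nonneg _) (by linarith)⟩

/-- For `σ < 0` the gap grows along the cap. -/
lemma deriv_gap_neg (hσ0 : σ < 0) (hb0 : 0 ≤ b) (hb : b < π / 2) :
    ∃ D, HasDerivAt (fun x => gap (cap σ x)) D b ∧ 0 ≤ D := by
  have hpi := Real.pi_pos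
  have hσ : σ < π / 2 := by linarith
  set y := 1 - σ with hy
  have hy1 : 1 < y := by rw [hy]; linarith
  set b₀ := arccos (1 / y) with hb₀
  have hy0 : 1 / y ∈ Ioo (0:ℝ) 1 := ⟨by positivity, by rw [div_lt_one (by linarith)]; exact hy1⟩
  have hb₀0 : 0 < b₀ := arccos_pos.2 hy0.2
  have hb₀1 : b₀ < π / 2 := arccos_lt_pi_div_two.2 hy0.1
  have hcb₀ : cos b₀ = 1 / y := cos_arccos (by linarith [hy0.1]) hy0.2.le
  have hle : ∀ x, 0 ≤ x → x ≤ b₀ → 1 ≤ y * cos x := fun x hx hx' => by
    have := cos_le_cos_of_nonneg_of_le_pi hx (by linarith) hx'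
    rw [hcb₀, div_le_iff₀ (by linarith)] at this
    linarith
  have hge : ∀ x, b₀ ≤ x → x < π / 2 → y * cos x ≤ 1 := fun x hx hx' => by
    have := cos_le_cos_of_nonneg_of_le_pi hb₀0.le (by linarith) hx
    rw [hcb₀, le_div_iff₀ (by linarith)] at this
    linarith
  have htan : ∀ x, 0 ≤ x → x < π / 2 → 0 ≤ tan x := fun x hx hx' =>
    tan_zero ▸ tan_le_tan_of_le (by linarith) hx' hx
  have hd1 : ∀ x, 0 ≤ x → x ≤ b₀ → x < π / 2 →
      HasDerivAt (fun x => J (cap σ x)) (tan x ^ 2 * cos x + 2 / 3 * tan x ^ 3 * sin x) x ∧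
        HasDerivAt (fun x => gap (cap σ x)) (tan x ^ 2 * (3 * √(J (cap σ x)) *
          seg (tan (x / 2)) (tan x) - qbar (tan (x / 2)) (tan x) -
            seg (tan (x / 2)) (tan x) / 100)) x := by
    intro x hx hx' hx''
    have hc := (cos_pos_of hx hx'').ne'
    exact derivs_cap hσ hx hx'' (htan x hx hx'') (le_of_eq (tan_mul_cos hc)) rfl
      (seg_head hσ0 hx hx'' (hle x hx hx'))
      fun t ht => absurd (tan_mul_cos hc ▸ ht.2) (by rw [sub_self]; exact ht.1.not_gt)
  have hJ1 : ∀ x, 0 ≤ x → x ≤ b₀ → J (cap σ x) = 2 / 3 + tan x ^ 3 * cos x / 3 := by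
    intro x hx hx'
    have hG : ∀ z ∈ Icc 0 x, HasDerivAt (fun z => J (cap σ z) - tan z ^ 3 * cos z / 3) 0 z := by
      intro z hz
      have hz' : z < π / 2 := by linarith [hz.2]
      have hc := (cos_pos_of hz.1 hz').ne'
      refine ((hd1 z hz.1 (hz.2.trans hx') hz').1.sub
        ((((hasDerivAt_tan hc).pow 3).mul (hasDerivAt_cos z)).div_const 3)).congr_deriv ?_
      simp only [Pi.pow_apply]
      rw [tan_eq_sin_div_cos]
      field_simp
      norm_num
      field_simp
      linear_combination (3 * sin z ^ 2) * sin_sq_add_cos_sq z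
    have h := constant_of_has_deriv_right_zero
      (fun z hz => (hG z hz).continuousAt.continuousWithinAt)
      (fun z hz => (hG z (Ico_subset_Icc_self hz)).hasDerivWithinAt) x ⟨hx, le_rfl⟩
    simp only [tan_zero] at h
    rw [J_congr (g := circ) fun t ht => cap_zero ht.1 ht.2 hσ, J_circ] at h
    linarith
  have hτ : 0 ≤ tan (b / 2) ∧ tan (b / 2) ≤ 1 := ⟨htan _ (by linarith) (by linarith),
    tan_pi_div_four ▸ tan_le_tan_of_le (by linarith) (by linarith) (by linarith)⟩
  have hh : cos (b / 2) ≠ 0 := (cos_pos_of (by linarith) (by linarith)).ne'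
  have hc := cos_pos_of hb0 hb
  rcases le_or_gt b b₀ with hbb | hbb
  · refine ⟨_, (hd1 b hb0 hbb hb).2, ?_⟩
    have h := headIneq hτ.1 hτ.2
      (tan_le_tan_of_le (x := b / 2) (y := b) (by linarith) hb (by linarith))
      (by rw [cc_tan_half hh, ss_tan_half hh, tan_mul_cos hc.ne'])
    have e : J (cap σ b) = 2 / 3 * (1 + headExcess (tan (b / 2)) (tan b)) := by
      rw [hJ1 b hb0 hbb, headExcess, cc_tan_half hh, ss_tan_half hh, tan_mul_cos hc.ne']
      ring
    rw [← e] at h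
    exact mul_nonneg (sq_nonneg _) (by linarith)
  · -- after the segment has left the axis
    have hd2 : ∀ x, b₀ ≤ x → x < π / 2 →
        HasDerivAt (fun x => J (cap σ x))
          (((y - cos x) / sin x) ^ 2 * cos x + 2 / 3 * ((y - cos x) / sin x) ^ 3 * sin x) x ∧
          HasDerivAt (fun x => gap (cap σ x)) (((y - cos x) / sin x) ^ 2 *
            (3 * √(J (cap σ x)) * seg (tan (x / 2)) ((y - cos x) / sin x) -
              qbar (tan (x / 2)) ((y - cos x) / sin x) -
              seg (tan (x / 2)) ((y - cos x) / sin x) / 100)) x := by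
      intro x hx hx'
      have hx0 := hb₀0.le.trans hx
      obtain ⟨-, hrτ, hrc, -, hi, ho⟩ := seg_flat hσ0 hx0 hx' (hge x hx hx')
      exact derivs_cap hσ hx0 hx' ((htan _ (by linarith) (by linarith)).trans hrτ) hrc rfl hi ho
    set R : ℝ → ℝ := fun x => (y - cos x) / sin x with hR
    set T : ℝ → ℝ := fun x => sin x - R x * cos x with hT
    have hG : ∀ x ∈ Icc b₀ b, HasDerivAt
        (fun x => J (cap σ x) - (R x ^ 2 * T x - 2 / 3 * T x ^ 3 + R x ^ 3 * cos x / 3)) 0 x := by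
      intro x hx
      have hx' := hx.2.trans_lt hb
      have hq : sin x ≠ 0 :=
        (sin_pos_of_pos_of_lt_pi (hb₀0.trans_le hx.1) (by linarith)).ne'
      have hu : (sin x)⁻¹ * sin x = 1 := inv_mul_cancel₀ hq
      have hqc := sin_sq_add_cos_sq x
      have hR' : HasDerivAt R (T x * (sin x)⁻¹) x := by
        refine (((hasDerivAt_cos x).const_sub y).div (hasDerivAt_sin x) hq).congr_deriv ?_
        simp only [hT, hR]
        field_simp
      have hT' : HasDerivAt T (R x * (sin x)⁻¹) x := by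
        refine ((hasDerivAt_sin x).sub (hR'.mul (hasDerivAt_cos x))).congr_deriv ?_
        simp only [hT]
        field_simp
        linear_combination R x * hqc
      have h1 := (((hR'.pow 2).mul hT').sub ((hT'.pow 3).const_mul (2 / 3))).add
        (((hR'.pow 3).mul (hasDerivAt_cos x)).div_const 3)
      refine ((hd2 x hx.1 hx').1.sub h1).congr_deriv ?_
      simp only [Pi.pow_apply]
      rw [show (y - cos x) / sin x = R x from rfl, show T x = sin x - R x * cos x from rfl]
      norm_num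
      linear_combination (-(R x ^ 3 * sin x + R x ^ 2 * cos x)) * hu +
        (R x ^ 3 * (sin x)⁻¹) * hqc
    have h0 := constant_of_has_deriv_right_zero
      (fun x hx => (hG x hx).continuousAt.continuousWithinAt)
      (fun x hx => (hG x (Ico_subset_Icc_self hx)).hasDerivWithinAt) b ⟨hbb.le, le_rfl⟩
    simp only [hJ1 b₀ hb₀0.le le_rfl] at h0
    have hs₀ : 0 < sin b₀ := sin_pos_of_pos_of_lt_pi hb₀0 (by linarith)
    have hc₀ : cos b₀ ≠ 0 := by rw [hcb₀]; exact hy0.1.ne'
    have e0 : R b₀ = tan b₀ := by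
      simp only [hR]
      rw [tan_eq_sin_div_cos, div_eq_div_iff hs₀.ne' hc₀]
      have hyc : y * cos b₀ = 1 := by rw [hcb₀]; field_simp
      linear_combination hyc - sin_sq_add_cos_sq b₀
    have e0' : T b₀ = 0 := by
      simp only [hT]
      rw [e0, tan_mul_cos hc₀, sub_self]
    rw [e0, e0'] at h0
    obtain ⟨hq, hrτ, hrc, -, -, -⟩ := seg_flat hσ0 hb0 hb (hge b hbb.le hb)
    rw [← hy] at hrτ hrc
    refine ⟨_, (hd2 b hbb.le hb).2, ?_⟩
    have h := headIneq hτ.1 hτ.2 hrτ (by rwa [cc_tan_half hh, ss_tan_half hh])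
    have e : J (cap σ b) = 2 / 3 * (1 + headExcess (tan (b / 2)) ((y - cos b) / sin b)) := by
      rw [headExcess, cc_tan_half hh, ss_tan_half hh]
      simp only [hT, hR] at h0
      linarith
    rw [← e] at h
    exact mul_nonneg (sq_nonneg _) (by linarith)

/-- The gap grows along every admissible cap. -/
theorem gap_cap_monotoneOn (hσ : σ < π / 2) :
    MonotoneOn (fun b => gap (cap σ b)) (Ico 0 (π / 2)) := by
  have hex : ∀ x ∈ Ico 0 (π / 2), ∃ D, HasDerivAt (fun x => gap (cap σ x)) D x ∧ 0 ≤ D := by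
    intro x hx
    rcases lt_or_ge σ 0 with h | h
    · exact deriv_gap_neg h hx.1 hx.2
    · exact deriv_gap_pos h hσ hx.1 hx.2
  choose! D hD hD0 using hex
  exact monotoneOn_of_hasDerivWithinAt_nonneg (convex_Ico _ _)
    (fun x hx => (hD x hx).continuousAt.continuousWithinAt)
    (fun x hx => (hD x (interior_subset hx)).hasDerivWithinAt)
    fun x hx => hD0 x (interior_subset hx)

/-- The gap of every admissible union of caps is nonnegative. -/
theorem gap_capSup_nonneg_all (S : Finset (ℝ × ℝ)) (hS : ∀ p ∈ S, Adm p) :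
    0 ≤ gap (OneD3.capSup S) :=
  gap_capSup_nonneg (fun _ h => gap_cap_monotoneOn h) S hS

end Vale.Agent.P237.Sharp.OneD4
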