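import Mathlib
import Vale.Agent.P237.Sharp.OneD4.Spec
import Vale.Agent.P237.Sharp.OneD4.Mono
import Vale.Agent.P237.Sharp.OneD3.Limit

/-!
# P237, sharp route in `ℝ⁴`: the one-dimensional inequality

Every admissible profile is approximated from below by finite unions of caps; dominated convergence
passes the gap inequality to the limit and the slack `kap` gives the equality case.
-/

open MeasureTheory Set Real Filter Topology
open scoped Interval

namespace Vale.Agent.P237.Sharp.OneD4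

open Vale.Agent.P237.Sharp.OneD3 (circ tang cap capL capR capSup circ_nonneg tang_arcsin cos_pos_of
  capR_of_le capL_of_ge cap_antitone circ_le_capSup cap_le_capSup capSup_le tang_le_between
  tang_sin_le)

section

variable {f : ℝ → ℝ} (hf : ConcaveOn ℝ (Icc 0 1) f) (hm : AntitoneOn f (Icc 0 1))
  (hc : ∀ t ∈ Icc (0:ℝ) 1, circ t ≤ f t)

include hf hm hc in
/-- Through every point of the graph goes an admissible cap lying below the graph. -/
lemma exists_cap_below {t : ℝ} (ht : t ∈ Ioo (0:ℝ) 1) :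
    ∃ p : ℝ × ℝ, Adm p ∧ cap p.1 p.2 t = f t ∧ ∀ s ∈ Icc (0:ℝ) 1, cap p.1 p.2 s ≤ f s := by
  have ht' : t ∈ Icc (0:ℝ) 1 := Ioo_subset_Icc_self ht
  set y := f t
  have hy : circ t ≤ y := hc t ht'
  set a := arcsin t
  have ha0 : 0 ≤ a := arcsin_nonneg.2 ht'.1
  have ha : a < π / 2 := arcsin_lt_pi_div_two.2 ht.2
  have hca : 0 < cos a := cos_pos_of ha0 ha
  have hsa : sin a = t := sin_arcsin (by linarith [ht.1]) ht'.2
  have hea : cos a = circ t := by rw [cos_arcsin, circ]
  have hφa : 1 - t * sin a - y * cos a ≤ 0 := by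
    have e : circ t ^ 2 = 1 - t ^ 2 := Real.sq_sqrt (by nlinarith [ht.1, ht.2])
    rw [hsa, hea]
    nlinarith [circ_nonneg t]
  set φ : ℝ → ℝ := fun x => 1 - t * sin x - y * cos x with hφ
  have hφc : Continuous φ := by rw [hφ]; fun_prop
  have htang : ∀ x, 0 < cos x → φ x = 0 → tang x t = y := by
    intro x hx h
    rw [tang, div_eq_iff hx.ne']
    simp only [hφ] at h
    linarith
  obtain ⟨b, hb, hb'⟩ := intermediate_value_Icc ha.le hφc.continuousOn
    (show (0:ℝ) ∈ Icc (φ a) (φ (π / 2)) from ⟨hφa, by simp [hφ]; linarith [ht.2]⟩)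
  have hb2 : b < π / 2 := by
    rcases hb.2.eq_or_lt with e | e
    · rw [e] at hb'; simp [hφ] at hb'; linarith [ht.2]
    · exact e
  have hyb : tang b t = y := htang b (cos_pos_of (ha0.trans hb.1) hb2) hb'
  have hR : capR b t = y := by rw [capR, max_eq_left hb.1, hyb]
  obtain ⟨σ, hσ2, hL, hcase⟩ : ∃ σ : ℝ, σ < π / 2 ∧ capL σ t = y ∧
      (σ < 0 ∨ 0 ≤ σ ∧ σ ≤ a ∧ tang σ t = y) := by
    rcases lt_or_ge 1 y with h1 | h1
    · refine ⟨1 - y, by linarith [Real.pi_pos], ?_, Or.inl (by linarith)⟩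
      rw [capL, if_pos (by linarith)]
      ring
    · obtain ⟨σ, hσ, hσ'⟩ := intermediate_value_Icc' ha0 hφc.continuousOn
        (show (0:ℝ) ∈ Icc (φ a) (φ 0) from ⟨hφa, by simp [hφ]; linarith⟩)
      have hy' : tang σ t = y := htang σ (cos_pos_of hσ.1 (hσ.2.trans_lt ha)) hσ'
      refine ⟨σ, hσ.2.trans_lt ha, ?_, Or.inr ⟨hσ.1, hσ.2, hy'⟩⟩
      rw [capL, if_neg hσ.1.not_gt, min_eq_left hσ.2, hy']
  refine ⟨(σ, b), ⟨hσ2, ha0.trans hb.1, hb2⟩, by rw [cap, hL, hR, min_self], fun s hs => ?_⟩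
  rcases le_total t s with hts | hts
  · refine (min_le_right _ _).trans ?_
    rcases le_total b (arcsin s) with h | h
    · rw [capR_of_le hs.1 hs.2 h]; exact hc s hs
    · rw [capR, max_eq_left h]
      have hsb : s ≤ sin b := by
        rw [← sin_arcsin (by linarith [hs.1]) hs.2]
        exact sin_le_sin_of_le_of_le_pi_div_two (by linarith [Real.pi_pos, arcsin_nonneg.2 hs.1])
          hb2.le h
      exact tang_le_between hf ht' ⟨hs.1.trans hsb, sin_le_one b⟩ hyb.le
        (tang_sin_le hc (ha0.trans hb.1) hb2) ⟨hts, hsb⟩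
  · refine (min_le_left _ _).trans ?_
    rcases hcase with h | ⟨h1, h2, h3⟩
    · rw [capL, if_pos h]
      rw [capL, if_pos h] at hL
      rw [hL]
      exact hm hs ht' hts
    · rcases le_total (arcsin s) σ with h | h
      · rw [capL_of_ge h1 hs.1 hs.2 h]; exact hc s hs
      · rw [capL, if_neg h1.not_gt, min_eq_left h]
        have hss : sin σ ≤ s := by
          rw [← sin_arcsin (by linarith [hs.1]) hs.2]
          exact sin_le_sin_of_le_of_le_pi_div_two (by linarith [Real.pi_pos])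
            (arcsin_le_pi_div_two s) h
        exact tang_le_between hf
          ⟨sin_nonneg_of_nonneg_of_le_pi h1 (by linarith [Real.pi_pos]), sin_le_one σ⟩ ht'
          (tang_sin_le hc h1 hσ2) h3.le ⟨hss, hts⟩

include hf hm hc in
/-- The gap inequality passes to the limit. -/
lemma gap_nonneg_of_union (h : ∀ S : Finset (ℝ × ℝ), (∀ p ∈ S, Adm p) → 0 ≤ gap (capSup S)) :
    0 ≤ gap f := by
  classical
  choose! P hP hPt hPle using fun t (ht : t ∈ Ioo (0:ℝ) 1) => exists_cap_below hf hm hc ht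
  set S : ℕ → Finset (ℝ × ℝ) := fun N => (Finset.Ioo 0 N).image fun i : ℕ => P ((i:ℝ) / N)
  have hgrid : ∀ {N i : ℕ}, 0 < i → i < N → (i:ℝ) / N ∈ Ioo (0:ℝ) 1 := fun {N i} hi hiN => by
    have hN : (0:ℝ) < N := by exact_mod_cast hi.trans hiN
    exact ⟨div_pos (by exact_mod_cast hi) hN, (div_lt_one hN).2 (by exact_mod_cast hiN)⟩
  have hS : ∀ N, ∀ p ∈ S N, Adm p := by
    intro N p hp
    obtain ⟨i, hi, rfl⟩ := Finset.mem_image.1 hp
    rw [Finset.mem_Ioo] at hi
    exact hP _ (hgrid hi.1 hi.2)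
  have hup : ∀ N, ∀ s ∈ Icc (0:ℝ) 1, capSup (S N) s ≤ f s := by
    intro N s hs
    refine capSup_le (hc s hs) fun p hp => ?_
    obtain ⟨i, hi, rfl⟩ := Finset.mem_image.1 hp
    rw [Finset.mem_Ioo] at hi
    exact hPle _ (hgrid hi.1 hi.2) s hs
  have hcont : ContinuousOn f (Ioo 0 1) := by
    have := hf.continuousOn_interior
    rwa [interior_Icc] at this
  have hlim : ∀ s ∈ Ioo (0:ℝ) 1, Tendsto (fun N => capSup (S N) s) atTop (𝓝 (f s)) := by
    intro s hs
    have hg : Tendsto (fun N : ℕ => (⌈s * N⌉₊ : ℝ) / N) atTop (𝓝 s) :=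
      (tendsto_nat_ceil_mul_div_atTop hs.1.le).comp tendsto_natCast_atTop_atTop
    have hfl : Tendsto (fun N : ℕ => f ((⌈s * N⌉₊ : ℝ) / N)) atTop (𝓝 (f s)) :=
      ((hcont.continuousAt (Ioo_mem_nhds hs.1 hs.2)).tendsto).comp hg
    refine tendsto_of_tendsto_of_tendsto_of_le_of_le' hfl tendsto_const_nhds ?_
      (Filter.Eventually.of_forall fun N => hup N s (Ioo_subset_Icc_self hs))
    filter_upwards [hg.eventually (gt_mem_nhds hs.2), eventually_gt_atTop 0] with N hN hN0
    set i := ⌈s * N⌉₊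
    have hN' : (0:ℝ) < N := by exact_mod_cast hN0
    have hi0 : 0 < i := Nat.ceil_pos.2 (mul_pos hs.1 hN')
    have hiN : i < N := by
      rw [div_lt_one hN'] at hN; exact_mod_cast hN
    have hsi : s ≤ (i:ℝ) / N := by
      rw [le_div_iff₀ hN']; exact Nat.le_ceil _
    have hmem : P ((i:ℝ) / N) ∈ S N :=
      Finset.mem_image.2 ⟨i, Finset.mem_Ioo.2 ⟨hi0, hiN⟩, rfl⟩
    have hg' := hgrid hi0 hiN
    have ha := hP _ hg'
    rw [← hPt _ hg']
    exact (cap_antitone ha.1 ha.2.1 ha.2.2 hs.1.le hsi hg'.2.le).trans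
      (cap_le_capSup hmem s)
  have hf0 : ∀ s ∈ Icc (0:ℝ) 1, f s ≤ f 0 := fun s hs => hm ⟨le_rfl, zero_le_one⟩ hs hs.1
  have hae : ∀ᵐ s : ℝ, s ∈ Ι (0:ℝ) 1 → s ∈ Ioo (0:ℝ) 1 := by
    filter_upwards [Measure.ae_ne volume (1:ℝ)] with s hs hI
    rw [uIoc_of_le zero_le_one] at hI
    exact ⟨hI.1, hI.2.lt_of_ne hs⟩
  have hbd : ∀ N, ∀ s ∈ Ι (0:ℝ) 1, 0 ≤ capSup (S N) s ∧ capSup (S N) s ≤ f 0 := fun N s hs => by
    rw [uIoc_of_le zero_le_one] at hs
    exact ⟨(circ_nonneg s).trans (circ_le_capSup _ s),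
      (hup N s (Ioc_subset_Icc_self hs)).trans (hf0 s (Ioc_subset_Icc_self hs))⟩
  have hJ : Tendsto (fun N => J (capSup (S N))) atTop (𝓝 (J f)) := by
    refine intervalIntegral.tendsto_integral_filter_of_dominated_convergence (fun _ => f 0 ^ 2)
      (.of_forall fun N => ((good_capSup (hS N)).1.pow_const 2).aestronglyMeasurable)
      (.of_forall fun N => .of_forall fun s hs => ?_) intervalIntegrable_const
      (hae.mono fun s hs hI => (hlim s (hs hI)).pow 2)
    rw [Real.norm_eq_abs, abs_pow, abs_of_nonneg (hbd N s hs).1]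
    exact pow_le_pow_left₀ (hbd N s hs).1 (hbd N s hs).2 2
  have hQ : Tendsto (fun N => Q (capSup (S N))) atTop (𝓝 (Q f)) := by
    refine intervalIntegral.tendsto_integral_filter_of_dominated_convergence
      (fun _ => |cst| * f 0 ^ 3 + |lam| * (5 * f 0 ^ 3 + f 0 ^ 5))
      (.of_forall fun N => (measurable_wfun (good_capSup (hS N)).1).aestronglyMeasurable)
      (.of_forall fun N => .of_forall fun s hs => ?_) intervalIntegrable_const
      (hae.mono fun s hs hI => ?_)
    · obtain ⟨g0, g1⟩ := hbd N s hs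
      rw [uIoc_of_le zero_le_one] at hs
      have h3 := pow_le_pow_left₀ g0 g1 3
      have h5 := pow_le_pow_left₀ g0 g1 5
      have p3 := pow_nonneg g0 3
      have p5 := pow_nonneg g0 5
      have hts : s ^ 2 * capSup (S N) s ^ 3 ≤ f 0 ^ 3 :=
        (mul_le_of_le_one_left p3 (pow_le_one₀ hs.1.le hs.2)).trans h3
      have hts0 : 0 ≤ s ^ 2 * capSup (S N) s ^ 3 := by positivity
      rw [Real.norm_eq_abs, wfun]
      refine (abs_add_le _ _).trans (add_le_add ?_ ?_)
      · rw [abs_mul, abs_of_nonneg p3]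
        exact mul_le_mul_of_nonneg_left h3 (abs_nonneg _)
      · rw [abs_mul]
        refine mul_le_mul_of_nonneg_left ?_ (abs_nonneg _)
        rw [abs_le, mul_assoc]
        constructor <;> linarith
    · have h := hlim s (hs hI)
      exact ((h.pow 3).const_mul cst).add
        ((((h.pow 3).const_mul (5 * s ^ 2)).sub (h.pow 5)).const_mul lam)
  exact ge_of_tendsto' (((hJ.mul hJ.sqrt).sub hQ).sub
    ((hJ.sub_const (2 / 3)).const_mul kap)) fun N => h _ (hS N)

end

/-- The one-dimensional inequality behind Petty's inequality in `ℝ⁴`. -/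
theorem oneD4 : OneD4 := by
  intro f hf hm hc hmom
  have hnn : ∀ t ∈ Icc (0:ℝ) 1, 0 ≤ f t := fun t ht => (circ_nonneg t).trans (hc t ht)
  have hu : uIcc (0:ℝ) 1 = Icc 0 1 := uIcc_of_le zero_le_one
  have hint : ∀ n : ℕ, IntervalIntegrable (fun t => f t ^ n) volume 0 1 := fun n =>
    AntitoneOn.intervalIntegrable (hu ▸ fun x hx y hy hxy =>
      pow_le_pow_left₀ (hnn y hy) (hm hx hy hxy) n)
  have hg := gap_nonneg_of_union hf hm hc gap_capSup_nonneg_all
  rw [gap, Q_eq (hint 3) (hint 5)] at hg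
  have hJ : 2 / 3 ≤ J f := by
    rw [← J_circ]
    exact intervalIntegral.integral_mono_on zero_le_one (int_pow OneD3.good_circ 2) (hint 2)
      fun t ht => pow_le_pow_left₀ (circ_nonneg t) (hc t ht) 2
  have hkJ : 0 ≤ kap * (J f - 2 / 3) := mul_nonneg (by norm_num [kap]) (by linarith)
  have hlm : 0 ≤ lam * (5 * (∫ t in (0:ℝ)..1, t ^ 2 * f t ^ 3) - ∫ t in (0:ℝ)..1, f t ^ 5) :=
    mul_nonneg (by norm_num [lam]) (by linarith)
  have hP : 0 ≤ ∫ t in (0:ℝ)..1, f t ^ 3 :=
    intervalIntegral.integral_nonneg zero_le_one fun t ht => pow_nonneg (hnn t ht) 3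
  have hcst : 0 ≤ cst := by unfold cst; positivity
  have hc2 : cst ^ 2 = 2048 / (243 * π ^ 2) := by
    have := pi_pos.ne'
    rw [cst, div_pow, mul_pow, Real.sq_sqrt (by norm_num)]
    field_simp
    norm_num
  have hsq : (J f * √(J f)) ^ 2 = J f ^ 3 := by
    rw [mul_pow, Real.sq_sqrt (J_nonneg f)]; ring
  set P := ∫ t in (0:ℝ)..1, f t ^ 3
  have hle : cst * P ≤ J f * √(J f) := by linarith
  refine ⟨?_, fun e => ?_⟩
  · show _ ≤ J f ^ 3
    rw [← hc2, ← mul_pow, ← hsq]
    exact pow_le_pow_left₀ (mul_nonneg hcst hP) hle 2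
  · change _ = J f ^ 3 at e
    rw [← hc2, ← mul_pow, ← hsq] at e
    have e' : cst * P = J f * √(J f) :=
      (pow_left_inj₀ (mul_nonneg hcst hP) (mul_nonneg (J_nonneg f) (sqrt_nonneg _)) two_ne_zero).1 e
    have h0 : J f = 2 / 3 := by
      have : kap * (J f - 2 / 3) = 0 := le_antisymm (by linarith) hkJ
      rcases mul_eq_zero.1 this with h' | h'
      · norm_num [kap] at h'
      · linarith
    have hzero : ∫ t in (0:ℝ)..1, (f t ^ 2 - circ t ^ 2) = 0 := by
      rw [intervalIntegral.integral_sub (hint 2) (int_pow OneD3.good_circ 2)]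
      change J f - J circ = 0
      rw [J_circ, h0, sub_self]
    rw [intervalIntegral.integral_eq_zero_iff_of_le_of_nonneg_ae zero_le_one ?_
      ((hint 2).sub (int_pow OneD3.good_circ 2))] at hzero
    · have hcont : ContinuousOn f (Ioo 0 1) := by
        have := hf.continuousOn_interior
        rwa [interior_Icc] at this
      have hcc : ContinuousOn circ (Ioo 0 1) :=
        (show Continuous circ by unfold circ; fun_prop).continuousOn
      refine Measure.eqOn_open_of_ae_eq (μ := volume) ?_ isOpen_Ioo hcont hcc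
      filter_upwards [ae_restrict_of_ae_restrict_of_subset Ioo_subset_Ioc_self hzero,
        ae_restrict_mem measurableSet_Ioo] with t ht htI
      exact (pow_left_inj₀ (hnn t (Ioo_subset_Icc_self htI)) (circ_nonneg t) two_ne_zero).1
        (sub_eq_zero.1 ht)
    · filter_upwards [ae_restrict_mem measurableSet_Ioc] with t ht
      exact sub_nonneg.2 (pow_le_pow_left₀ (circ_nonneg t) (hc t (Ioc_subset_Icc_self ht)) 2)

end Vale.Agent.P237.Sharp.OneD4
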